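import Mathlib

/-!
P071: the Laplacian of `K ∘ g` for `g` holomorphic.
-/

open Metric Complex InnerProductSpace Laplacian Filter Topology

namespace P071

/-- The second derivative of `K ∘ g` in the direction `v`. -/
lemma sndDeriv_comp_holo {K : ℂ → ℝ} {g : ℂ → ℂ} {z : ℂ} (hg : AnalyticAt ℂ g z)
    (hK : ContDiffAt ℝ 2 K (g z)) (v : ℂ) :
    fderiv ℝ (fderiv ℝ (K ∘ g)) z v v =
      fderiv ℝ (fderiv ℝ K) (g z) (deriv g z * v) (deriv g z * v)
        + fderiv ℝ K (g z) (deriv (deriv g) z * v * v) := by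
  -- the real derivative of `g` near `z`
  have hgF : ∀ᶠ w in 𝓝 z, ∀ u : ℂ, HasFDerivAt g
      ((ContinuousLinearMap.toSpanSingleton ℂ (deriv g w)).restrictScalars ℝ) w := by
    filter_upwards [hg.eventually_analyticAt] with w hw _
    have h1 := hw.differentiableAt.hasDerivAt
    have h2 : HasFDerivAt g (ContinuousLinearMap.toSpanSingleton ℂ (deriv g w)) w := by
      simpa [HasDerivAt, hasDerivAtFilter_iff_hasFDerivAtFilter, ContinuousLinearMap.toSpanSingleton,
        ContinuousLinearMap.smulRight] using h1.hasFDerivAt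
    exact h2.restrictScalars ℝ
  have hgz : HasFDerivAt g
      ((ContinuousLinearMap.toSpanSingleton ℂ (deriv g z)).restrictScalars ℝ) z :=
    hgF.self_of_nhds 0
  -- `K` is differentiable near `g z`
  have hKev : ∀ᶠ w in 𝓝 z, DifferentiableAt ℝ K (g w) := by
    have h1 : ∀ᶠ u in 𝓝 (g z), DifferentiableAt ℝ K u := by
      filter_upwards [hK.eventually (by simp)] with u hu
      exact hu.differentiableAt (by simp)
    exact hg.continuousAt.eventually h1
  -- first derivative of the composition in the direction `v`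
  have hfirst : (fun w => fderiv ℝ (K ∘ g) w v) =ᶠ[𝓝 z]
      fun w => fderiv ℝ K (g w) (deriv g w * v) := by
    filter_upwards [hgF, hKev] with w hw1 hw2
    have h3 := (hw2.hasFDerivAt.comp w (hw1 0)).fderiv
    rw [h3]
    simp [ContinuousLinearMap.toSpanSingleton_apply, mul_comm]
  -- regularity of the composition
  have hgC : ContDiffAt ℝ 2 g z := (hg.contDiffAt (n := 2)).restrict_scalars ℝ
  have hφ : ContDiffAt ℝ 2 (K ∘ g) z := hK.comp z hgC
  have hφ' : DifferentiableAt ℝ (fderiv ℝ (K ∘ g)) z :=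
    (hφ.fderiv_right (m := 1) (by norm_num)).differentiableAt (by simp)
  have hDK : DifferentiableAt ℝ (fderiv ℝ K) (g z) :=
    (hK.fderiv_right (m := 1) (by norm_num)).differentiableAt (by simp)
  -- the directional derivative of the first derivative
  have hL : HasFDerivAt (fun w => fderiv ℝ (K ∘ g) w v)
      ((ContinuousLinearMap.apply ℝ ℝ v).comp (fderiv ℝ (fderiv ℝ (K ∘ g)) z)) z :=
    (ContinuousLinearMap.apply ℝ ℝ v).hasFDerivAt.comp z hφ'.hasFDerivAt
  -- derivative of `w ↦ deriv g w * v`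
  have hm : HasFDerivAt (fun w => deriv g w * v)
      (((ContinuousLinearMap.toSpanSingleton ℂ (deriv (deriv g) z)).restrictScalars ℝ).smulRight v
        ) z := by
    have h1 := hg.deriv.differentiableAt.hasDerivAt
    have h2 : HasFDerivAt (deriv g)
        (ContinuousLinearMap.toSpanSingleton ℂ (deriv (deriv g) z)) z := by
      simpa [HasDerivAt, hasDerivAtFilter_iff_hasFDerivAtFilter, ContinuousLinearMap.toSpanSingleton,
        ContinuousLinearMap.smulRight] using h1.hasFDerivAt
    have h3 := h2.restrictScalars ℝ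
    refine (h3.mul_const v).congr_fderiv ?_
    ext u
    simp
    ring
  -- derivative of `w ↦ fderiv K (g w)`
  have hh : HasFDerivAt (fun w => fderiv ℝ K (g w))
      ((fderiv ℝ (fderiv ℝ K) (g z)).comp
        ((ContinuousLinearMap.toSpanSingleton ℂ (deriv g z)).restrictScalars ℝ)) z :=
    hDK.hasFDerivAt.comp z hgz
  have hR := hh.clm_apply hm
  have hR' : HasFDerivAt (fun w => fderiv ℝ (K ∘ g) w v) _ z := hR.congr_of_eventuallyEq hfirst
  have huniq := hL.unique hR'
  have hv := congrArg (fun T => T v) huniq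
  simp only [ContinuousLinearMap.comp_apply, ContinuousLinearMap.apply_apply,
    add_apply, ContinuousLinearMap.flip_apply,
    ContinuousLinearMap.coe_restrictScalars', ContinuousLinearMap.toSpanSingleton_apply,
    ContinuousLinearMap.smulRight_apply] at hv
  rw [hv]
  simp [smul_eq_mul, mul_comm]
  ring_nf

/-- Conformal covariance of the Laplacian. -/
theorem laplacian_comp_holo {K : ℂ → ℝ} {g : ℂ → ℂ} {z : ℂ} (hg : AnalyticAt ℂ g z)
    (hK : ContDiffAt ℝ 2 K (g z)) :
    Δ (K ∘ g) z = ‖deriv g z‖ ^ 2 * Δ K (g z) := by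
  have h1 : ∀ f : ℂ → ℝ, ∀ x, Δ f x =
      fderiv ℝ (fderiv ℝ f) x 1 1 + fderiv ℝ (fderiv ℝ f) x I I := by
    intro f x
    rw [laplacian_eq_iteratedFDeriv_complexPlane]
    simp [iteratedFDeriv_two_apply]
  rw [h1, h1, sndDeriv_comp_holo hg hK, sndDeriv_comp_holo hg hK]
  set a := deriv g z with ha
  set b := deriv (deriv g) z with hb
  set Q := fderiv ℝ (fderiv ℝ K) (g z) with hQ
  set D := fderiv ℝ K (g z) with hD
  have hsymm : IsSymmSndFDerivAt ℝ K (g z) := hK.isSymmSndFDerivAt (by simp)
  have hsymm1 : Q 1 I = Q I 1 := hsymm 1 I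
  have hb0 : b * 1 * 1 + b * I * I = 0 := by
    have : I * I = -1 := Complex.I_mul_I
    calc b * 1 * 1 + b * I * I = b + b * (I * I) := by ring
      _ = 0 := by rw [this]; ring
  have hDb : D (b * 1 * 1) + D (b * I * I) = 0 := by
    rw [← map_add, hb0, map_zero]
  -- expand `a` in the basis `1, I`
  have ea1 : a * 1 = (a.re : ℝ) • (1 : ℂ) + (a.im : ℝ) • I := by
    apply Complex.ext <;> simp
  have eaI : a * I = (-a.im : ℝ) • (1 : ℂ) + (a.re : ℝ) • I := by
    apply Complex.ext <;> simp
  have hQ1 : Q (a * 1) (a * 1) = a.re * a.re * Q 1 1 + a.re * a.im * Q 1 I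
      + a.im * a.re * Q I 1 + a.im * a.im * Q I I := by
    rw [ea1]
    simp only [map_add, map_smul, add_apply, smul_apply,
      smul_eq_mul]
    ring
  have hQI : Q (a * I) (a * I) = a.im * a.im * Q 1 1 - a.im * a.re * Q 1 I
      - a.re * a.im * Q I 1 + a.re * a.re * Q I I := by
    rw [eaI]
    simp only [map_add, map_smul, add_apply, smul_apply,
      smul_eq_mul]
    ring
  have hn : ‖a‖ ^ 2 = a.re * a.re + a.im * a.im := by
    rw [← Complex.normSq_eq_norm_sq, Complex.normSq_apply]
  rw [hn, hQ1, hQI]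
  linear_combination hDb

end P071
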