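import Vale.Agent.Lib.P071.Disc
import Vale.Agent.Lib.P071.Chain

/-!
P071: pull-back of the Neumann function to the unit disc, proof of the centred theorem.
-/

open Metric Complex InnerProductSpace Laplacian Filter Topology

namespace P071

/-- Derivative of `w ↦ log ‖w - q‖`. -/
lemma hasFDerivAt_log_norm_sub {q z : ℂ} (hz : z ≠ q) :
    HasFDerivAt (fun w : ℂ => Real.log ‖w - q‖)
      ((‖z - q‖ ^ 2)⁻¹ • innerSL ℝ (z - q)) z := by
  have h0 : ‖z - q‖ ^ 2 ≠ 0 := by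
    have : z - q ≠ 0 := sub_ne_zero.2 hz
    positivity
  have h1 : HasFDerivAt (fun w : ℂ => ‖w - q‖ ^ 2)
      (2 • (innerSL ℝ (z - q)).comp (ContinuousLinearMap.id ℝ ℂ)) z :=
    ((hasFDerivAt_id z).sub_const q).norm_sq
  have h2 := h1.log h0
  have h3 : (fun w : ℂ => Real.log ‖w - q‖) =
      fun w : ℂ => (1 / 2 : ℝ) * Real.log (‖w - q‖ ^ 2) := by
    funext w
    rw [Real.log_pow]
    push_cast
    ring
  rw [h3]
  refine (h2.const_mul (1 / 2 : ℝ)).congr_fderiv ?_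
  ext v
  simp
  ring

/-- Value of the derivative on a vector. -/
lemma fderiv_log_norm_sub_apply {q z : ℂ} (hz : z ≠ q) (v : ℂ) :
    fderiv ℝ (fun w : ℂ => Real.log ‖w - q‖) z v =
      (‖z - q‖ ^ 2)⁻¹ * inner ℝ (z - q) v := by
  rw [(hasFDerivAt_log_norm_sub hz).fderiv]
  rfl

/-- On the unit circle, the radial derivative of `log ‖z - q‖` is `1/2`. -/
lemma radial_log_norm_sub {q z : ℂ} (hz : z ≠ q) (hz1 : ‖z‖ = 1) (hq : ‖q‖ = 1) :
    fderiv ℝ (fun w : ℂ => Real.log ‖w - q‖) z z = 1 / 2 := by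
  rw [fderiv_log_norm_sub_apply hz]
  have h0 : ‖z - q‖ ^ 2 ≠ 0 := by
    have : z - q ≠ 0 := sub_ne_zero.2 hz
    positivity
  have h1 : ‖z - q‖ ^ 2 = 2 * (1 - inner ℝ z q) := by
    rw [@norm_sub_sq_real, hz1, hq]
    ring
  have h2 : (inner ℝ (z - q) z : ℝ) = 1 - inner ℝ z q := by
    rw [inner_sub_left, real_inner_self_eq_norm_sq, hz1, real_inner_comm]
    ring
  rw [h2]
  rw [h1] at h0 ⊢
  have h3 : (1 - inner ℝ z q : ℝ) ≠ 0 := fun h => h0 (by rw [h]; ring)
  field_simp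

/-- The derivative at the origin in the direction `q`. -/
lemma origin_log_norm_sub {q : ℂ} (hq : ‖q‖ = 1) :
    fderiv ℝ (fun w : ℂ => Real.log ‖w - q‖) 0 q = -1 := by
  have h0 : (0 : ℂ) ≠ q := by
    rintro rfl
    simp at hq
  rw [fderiv_log_norm_sub_apply h0]
  simp [hq, inner_neg_left]

/-- The centred theorem. -/
theorem centered_aux {g : ℂ → ℂ} {R : ℝ} (hR : 1 < R) (hg : DifferentiableOn ℂ g (ball 0 R))
    (hinj : Set.InjOn g (closedBall 0 1)) (hg' : ∀ z ∈ closedBall (0 : ℂ) 1, deriv g z ≠ 0)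
    {q : ℂ} (hq : ‖q‖ = 1) {U : Set ℂ} (hU : IsOpen U) (hUg : g '' closedBall 0 1 ⊆ U)
    {K : ℂ → ℝ} (hK : ContDiffOn ℝ 2 K U) {C c : ℝ} (hC : 0 < C) {N : ℂ → ℝ}
    (hN : N = fun y => K y - c * Real.log ‖y - g q‖)
    (hΔ : ∀ y ∈ g '' ball 0 1, Δ N y = C)
    (hBC : ∀ z : ℂ, ‖z‖ = 1 → z ≠ q → fderiv ℝ N (g z) (z * deriv g z) = 0) :
    fderiv ℝ N (g 0) ≠ 0 := by
  classical
  -- basic sets
  have hqcl : q ∈ closedBall (0 : ℂ) 1 := by simp [hq]
  have hcl_sub : closedBall (0 : ℂ) 1 ⊆ ball 0 R := closedBall_subset_ball hR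
  have hgan : AnalyticOnNhd ℂ g (ball 0 R) := hg.analyticOnNhd isOpen_ball
  have hg_ne : ∀ z ∈ closedBall (0 : ℂ) 1, z ≠ q → g z ≠ g q := fun z hz hzq h =>
    hzq (hinj hz hqcl h)
  -- the quotient
  set E : ℂ → ℂ := dslope g q with hE
  have hEd : DifferentiableOn ℂ E (ball 0 R) :=
    (Complex.differentiableOn_dslope (isOpen_ball.mem_nhds (hcl_sub hqcl))).2 hg
  have hEan : AnalyticOnNhd ℂ E (ball 0 R) := hEd.analyticOnNhd isOpen_ball
  have hE_ne : ∀ z ∈ closedBall (0 : ℂ) 1, E z ≠ 0 := by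
    intro z hz
    by_cases hzq : z = q
    · subst hzq
      rw [hE, dslope_same]
      exact hg' z hz
    · rw [hE, dslope_of_ne _ hzq, slope_def_field]
      exact div_ne_zero (sub_ne_zero.2 (hg_ne z hz hzq)) (sub_ne_zero.2 hzq)
  have hfac : ∀ z, g z - g q = (z - q) * E z := by
    intro z
    have := sub_smul_dslope g q z
    rw [smul_eq_mul] at this
    exact this.symm
  -- a larger ball
  have hO : IsOpen (ball (0 : ℂ) R ∩ ((E ⁻¹' {0}ᶜ) ∩ (g ⁻¹' U))) := by
    have h1 : IsOpen (ball (0 : ℂ) R ∩ E ⁻¹' {0}ᶜ) :=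
      hEd.continuousOn.isOpen_inter_preimage isOpen_ball isClosed_singleton.isOpen_compl
    have h2 : IsOpen (ball (0 : ℂ) R ∩ g ⁻¹' U) :=
      hg.continuousOn.isOpen_inter_preimage isOpen_ball hU
    have : ball (0 : ℂ) R ∩ ((E ⁻¹' {0}ᶜ) ∩ (g ⁻¹' U)) =
        (ball (0 : ℂ) R ∩ E ⁻¹' {0}ᶜ) ∩ (ball (0 : ℂ) R ∩ g ⁻¹' U) := by
      ext z
      simp only [Set.mem_inter_iff]
      tauto
    rw [this]
    exact h1.inter h2
  have hsubO : closedBall (0 : ℂ) 1 ⊆ ball (0 : ℂ) R ∩ ((E ⁻¹' {0}ᶜ) ∩ (g ⁻¹' U)) := by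
    intro z hz
    exact ⟨hcl_sub hz, hE_ne z hz, hUg ⟨z, hz, rfl⟩⟩
  obtain ⟨δ, hδ, hδsub⟩ := (isCompact_closedBall (0 : ℂ) 1).exists_thickening_subset_open hO hsubO
  rw [thickening_closedBall hδ zero_le_one] at hδsub
  set ρ : ℝ := δ + 1 with hρdef
  have hρ : 1 < ρ := by rw [hρdef]; linarith
  have hρR : ∀ z ∈ ball (0 : ℂ) ρ, z ∈ ball (0 : ℂ) R := fun z hz => (hδsub hz).1
  have hρE : ∀ z ∈ ball (0 : ℂ) ρ, E z ≠ 0 := fun z hz => (hδsub hz).2.1
  have hρU : ∀ z ∈ ball (0 : ℂ) ρ, g z ∈ U := fun z hz => (hδsub hz).2.2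
  have hcl_ρ : closedBall (0 : ℂ) 1 ⊆ ball 0 ρ := closedBall_subset_ball hρ
  -- the regular part
  set k : ℂ → ℝ := fun z => K (g z) - c * Real.log ‖E z‖ with hk_def
  have hgC : ContDiffOn ℝ 2 g (ball 0 R) :=
    (hg.contDiffOn isOpen_ball).restrict_scalars ℝ
  have hKgAt : ∀ z ∈ ball (0 : ℂ) ρ, ContDiffAt ℝ 2 (K ∘ g) z := by
    intro z hz
    have h1 : ContDiffAt ℝ 2 K (g z) := hK.contDiffAt (hU.mem_nhds (hρU z hz))
    have h2 : ContDiffAt ℝ 2 g z := hgC.contDiffAt (isOpen_ball.mem_nhds (hρR z hz))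
    exact h1.comp z h2
  have hLE : ∀ z ∈ ball (0 : ℂ) ρ, HarmonicAt (fun w => Real.log ‖E w‖) z := fun z hz =>
    (hEan z (hρR z hz)).harmonicAt_log_norm (hρE z hz)
  have hkAt : ∀ z ∈ ball (0 : ℂ) ρ, ContDiffAt ℝ 2 k z := by
    intro z hz
    exact (hKgAt z hz).sub (contDiffAt_const.mul (hLE z hz).1)
  have hkC : ContDiffOn ℝ 2 k (ball 0 ρ) := fun z hz => (hkAt z hz).contDiffWithinAt
  -- relation between `N ∘ g` and `k`
  have hrel : ∀ z ∈ ball (0 : ℂ) ρ, z ≠ q → N (g z) = k z - c * Real.log ‖z - q‖ := by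
    intro z hz hzq
    have h1 : z - q ≠ 0 := sub_ne_zero.2 hzq
    rw [hN]
    simp only [hk_def]
    rw [hfac z, norm_mul, Real.log_mul (norm_ne_zero_iff.2 h1) (norm_ne_zero_iff.2 (hρE z hz))]
    ring
  -- differentiability of `N`
  have hNd : ∀ z ∈ closedBall (0 : ℂ) 1, z ≠ q → DifferentiableAt ℝ N (g z) := by
    intro z hz hzq
    have h1 : DifferentiableAt ℝ K (g z) :=
      (hK.contDiffAt (hU.mem_nhds (hρU z (hcl_ρ hz)))).differentiableAt (by norm_num)
    have h2 : DifferentiableAt ℝ (fun w : ℂ => Real.log ‖w - g q‖) (g z) :=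
      (hasFDerivAt_log_norm_sub (hg_ne z hz hzq)).differentiableAt
    rw [hN]
    exact h1.sub (h2.const_mul c)
  have hgF : ∀ z ∈ ball (0 : ℂ) R, HasFDerivAt g
      ((ContinuousLinearMap.toSpanSingleton ℂ (deriv g z)).restrictScalars ℝ) z := by
    intro z hz
    have h1 : HasDerivAt g (deriv g z) z :=
      (hg.differentiableAt (isOpen_ball.mem_nhds hz)).hasDerivAt
    exact h1.hasFDerivAt.restrictScalars ℝ
  -- the Laplacian of `k`
  set f : ℂ → ℂ := fun z => ((Real.sqrt C : ℝ) : ℂ) * deriv g z with hf_def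
  have hfd : DifferentiableOn ℂ f (ball 0 R) :=
    (hg.deriv isOpen_ball).const_mul _
  have hsq : Real.sqrt C ≠ 0 := (Real.sqrt_pos.2 hC).ne'
  have hf0 : ∃ z ∈ ball (0 : ℂ) 1, f z ≠ 0 := by
    refine ⟨0, by simp, mul_ne_zero (by exact_mod_cast hsq) (hg' 0 (by simp))⟩
  have hkΔ : ∀ z ∈ ball (0 : ℂ) 1, Δ k z = ‖f z‖ ^ 2 := by
    intro z hz
    have hzcl : z ∈ closedBall (0 : ℂ) 1 := ball_subset_closedBall hz
    have hzρ := hcl_ρ hzcl
    have hzq : z ≠ q := by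
      rintro rfl
      simp [hq] at hz
    -- first the Laplacian of `K` at `g z`
    have hKat : ContDiffAt ℝ 2 K (g z) := hK.contDiffAt (hU.mem_nhds (hρU z hzρ))
    have hLat : HarmonicAt (fun w : ℂ => Real.log ‖w - g q‖) (g z) :=
      ((analyticAt_id.sub analyticAt_const : AnalyticAt ℂ (fun w : ℂ => w - g q) (g z))).harmonicAt_log_norm
        (sub_ne_zero.2 (hg_ne z hzcl hzq))
    have hΔK : Δ K (g z) = C := by
      have h1 := hΔ (g z) ⟨z, hz, rfl⟩
      have h2 : N = K - c • (fun w : ℂ => Real.log ‖w - g q‖) := by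
        rw [hN]
        funext y
        simp
      rw [h2] at h1
      have hs : ContDiffAt ℝ 2 (c • fun w : ℂ => Real.log ‖w - g q‖) (g z) := hLat.1.const_smul c
      rw [hKat.laplacian_sub hs, laplacian_smul c hLat.1, hLat.2.self_of_nhds] at h1
      simpa using h1
    have hkeq : k = (K ∘ g) - c • (fun w : ℂ => Real.log ‖E w‖) := by
      funext y
      simp [hk_def]
    have hs : ContDiffAt ℝ 2 (c • fun w : ℂ => Real.log ‖E w‖) z := (hLE z hzρ).1.const_smul c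
    rw [hkeq, (hKgAt z hzρ).laplacian_sub hs,
      laplacian_smul c (hLE z hzρ).1, (hLE z hzρ).2.self_of_nhds,
      laplacian_comp_holo (hgan z (hcl_sub hzcl)) hKat, hΔK]
    simp only [hf_def, norm_mul, Complex.norm_real, Real.norm_eq_abs, mul_pow, sq_abs,
      Real.sq_sqrt hC.le]
    simp
    ring
  -- the boundary condition for `k`
  have hkBC0 : ∀ z : ℂ, ‖z‖ = 1 → z ≠ q → fderiv ℝ k z z = c / 2 := by
    intro z hz hzq
    have hzcl : z ∈ closedBall (0 : ℂ) 1 := by simp [hz]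
    have hzρ := hcl_ρ hzcl
    have hev : k =ᶠ[𝓝 z] fun w => N (g w) + c * Real.log ‖w - q‖ := by
      have : ball (0 : ℂ) ρ ∩ {q}ᶜ ∈ 𝓝 z :=
        (isOpen_ball.inter isOpen_compl_singleton).mem_nhds ⟨hzρ, hzq⟩
      filter_upwards [this] with w hw
      rw [hrel w hw.1 hw.2]
      ring
    have hNg : HasFDerivAt (fun w => N (g w))
        ((fderiv ℝ N (g z)).comp
          ((ContinuousLinearMap.toSpanSingleton ℂ (deriv g z)).restrictScalars ℝ)) z :=
      (hNd z hzcl hzq).hasFDerivAt.comp z (hgF z (hcl_sub hzcl))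
    have hsum := hNg.add ((hasFDerivAt_log_norm_sub hzq).const_mul c)
    have hsum' : HasFDerivAt (fun w => N (g w) + c * Real.log ‖w - q‖) _ z := hsum
    rw [hev.fderiv_eq, hsum'.fderiv]
    have h1 : ((ContinuousLinearMap.toSpanSingleton ℂ (deriv g z)).restrictScalars ℝ) z =
        z * deriv g z := by
      simp
    have h2 := radial_log_norm_sub hzq hz hq
    rw [fderiv_log_norm_sub_apply hzq] at h2
    simp only [add_apply, ContinuousLinearMap.comp_apply, h1, hBC z hz hzq, zero_add]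
    change c * ((‖z - q‖ ^ 2)⁻¹ * inner ℝ (z - q) z) = c / 2
    rw [h2]
    ring
  have hkBC : ∀ z : ℂ, ‖z‖ = 1 → fderiv ℝ k z z = c / 2 := by
    intro z hz
    by_cases hzq : z = q
    · subst hzq
      have hzρ := hcl_ρ hqcl
      have hcont : ContinuousAt (fun w => fderiv ℝ k w w) z := by
        have h1 : ContinuousOn (fderiv ℝ k) (ball 0 ρ) :=
          hkC.continuousOn_fderiv_of_isOpen isOpen_ball (by norm_num)
        have h2 : ContinuousAt (fderiv ℝ k) z := h1.continuousAt (isOpen_ball.mem_nhds hzρ)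
        exact h2.clm_apply continuousAt_id
      set u : ℝ → ℂ := fun t => z * Complex.exp (t * I) with hu
      have hu0 : u 0 = z := by simp [hu]
      have hucont : Continuous u := by
        rw [hu]
        fun_prop
      have hlim : Tendsto (fun t => fderiv ℝ k (u t) (u t)) (𝓝[>] 0) (𝓝 (fderiv ℝ k z z)) := by
        have h1 : Tendsto u (𝓝[>] 0) (𝓝 z) := by
          have : Tendsto u (𝓝 0) (𝓝 (u 0)) := hucont.continuousAt
          rw [hu0] at this
          exact this.mono_left nhdsWithin_le_nhds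
        exact hcont.tendsto.comp h1
      have hval : ∀ᶠ t in 𝓝[>] (0 : ℝ), fderiv ℝ k (u t) (u t) = c / 2 := by
        have : Set.Ioo (0 : ℝ) 1 ∈ 𝓝[>] (0 : ℝ) := Ioo_mem_nhdsGT one_pos
        filter_upwards [this] with t ht
        apply hkBC0
        · simp [hu, hz, Complex.norm_exp_ofReal_mul_I]
        · intro h
          have hz0 : z ≠ 0 := by
            rintro rfl
            simp at hz
          have h2 : Complex.exp (t * I) = 1 := by
            have : z * Complex.exp (t * I) = z * 1 := by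
              rw [mul_one]
              exact h
            exact mul_left_cancel₀ hz0 this
          have h3 : (Complex.exp (t * I)).im = Real.sin t := Complex.exp_ofReal_mul_I_im t
          rw [h2] at h3
          have h4 : 0 < Real.sin t :=
            Real.sin_pos_of_pos_of_lt_pi ht.1 (by linarith [ht.2, Real.pi_gt_three])
          simp at h3
          linarith
      exact tendsto_nhds_unique hlim ((tendsto_congr' hval).2 tendsto_const_nhds)
    · exact hkBC0 z hz hzq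
  -- conclusion
  have hkey := disc_origin hR hfd hf0 hρ hkC hkΔ hkBC hq
  have h0cl : (0 : ℂ) ∈ closedBall (0 : ℂ) 1 := by simp
  have h0q : (0 : ℂ) ≠ q := by
    rintro rfl
    simp at hq
  have hk0 : DifferentiableAt ℝ k 0 := (hkAt 0 (hcl_ρ h0cl)).differentiableAt (by norm_num)
  have hev : (fun w => N (g w)) =ᶠ[𝓝 0] fun w => k w - c * Real.log ‖w - q‖ := by
    have : ball (0 : ℂ) ρ ∩ {q}ᶜ ∈ 𝓝 (0 : ℂ) :=
      (isOpen_ball.inter isOpen_compl_singleton).mem_nhds ⟨hcl_ρ h0cl, h0q⟩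
    filter_upwards [this] with w hw
    exact hrel w hw.1 hw.2
  have hNg : HasFDerivAt (fun w => N (g w))
      ((fderiv ℝ N (g 0)).comp
        ((ContinuousLinearMap.toSpanSingleton ℂ (deriv g 0)).restrictScalars ℝ)) 0 :=
    (hNd 0 h0cl h0q).hasFDerivAt.comp 0 (hgF 0 (hcl_sub h0cl))
  have hsum := hk0.hasFDerivAt.sub ((hasFDerivAt_log_norm_sub h0q).const_mul c)
  have heq : fderiv ℝ (fun w => N (g w)) 0 = _ := hev.fderiv_eq.trans hsum.fderiv
  intro hzero
  have h1 : fderiv ℝ (fun w => N (g w)) 0 q = 0 := by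
    rw [hNg.fderiv, hzero]
    simp
  rw [heq] at h1
  have h2 := origin_log_norm_sub hq
  rw [fderiv_log_norm_sub_apply h0q] at h2
  have h3 : fderiv ℝ k 0 q - c * ((‖(0 : ℂ) - q‖ ^ 2)⁻¹ * inner ℝ ((0 : ℂ) - q) q) = 0 := h1
  rw [h2] at h3
  linarith

end P071
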