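import Mathlib

/-!
P071, the coefficient inequality: an exact, critical discrete Hardy inequality.
See notes/P071_blueprint.md, Step 3.
-/

namespace P071

/-- The ground state `P n = ∑_{j ≤ n} 1/(2j+1)`. -/
noncomputable def Pn (n : ℕ) : ℝ := ∑ j ∈ Finset.range (n + 1), 1 / (2 * (j : ℝ) + 1)

/-- The coefficient `c n = (2n+3)/(2(n+1)(n+2)) = 1/(2n+2) + 1/(2n+4)`. -/
noncomputable def cn (n : ℕ) : ℝ := (2 * (n : ℝ) + 3) / (2 * ((n : ℝ) + 1) * ((n : ℝ) + 2))

lemma Pn_succ (n : ℕ) : Pn (n + 1) = Pn n + 1 / (2 * (n : ℝ) + 3) := by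
  unfold Pn
  rw [Finset.sum_range_succ]
  push_cast
  congr 2
  ring

lemma Pn_zero : Pn 0 = 1 := by
  simp [Pn]

lemma Pn_ge_one (n : ℕ) : 1 ≤ Pn n := by
  induction n with
  | zero => rw [Pn_zero]
  | succ n ih =>
    rw [Pn_succ]
    have : (0 : ℝ) < 1 / (2 * (n : ℝ) + 3) := by positivity
    linarith

lemma Pn_pos (n : ℕ) : 0 < Pn n := lt_of_lt_of_le one_pos (Pn_ge_one n)

/-- Left weight of the termwise inequality. -/
noncomputable def alphaN (n : ℕ) : ℝ :=
  (2 * (n : ℝ) + 3) * Pn (n + 1) / (4 * ((n : ℝ) + 1) ^ 2 * Pn n)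

/-- Right weight of the termwise inequality. -/
noncomputable def gammaN (n : ℕ) : ℝ :=
  (2 * (n : ℝ) + 3) * Pn n / (4 * ((n : ℝ) + 2) ^ 2 * Pn (n + 1))

lemma alphaN_pos (n : ℕ) : 0 < alphaN n := by
  have := Pn_pos n
  have := Pn_pos (n + 1)
  unfold alphaN
  positivity

lemma gammaN_pos (n : ℕ) : 0 < gammaN n := by
  have := Pn_pos n
  have := Pn_pos (n + 1)
  unfold gammaN
  positivity

lemma alphaN_zero : alphaN 0 = 1 := by
  unfold alphaN
  rw [Pn_succ, Pn_zero]
  norm_num

lemma alphaN_succ_add_gammaN (n : ℕ) :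
    alphaN (n + 1) + gammaN n = 1 / ((n : ℝ) + 2) := by
  have h1 := Pn_pos (n + 1)
  have hP2 : Pn (n + 1 + 1) = Pn (n + 1) + 1 / (2 * ((n : ℝ) + 1) + 3) := by
    rw [Pn_succ (n + 1)]
    push_cast
    ring
  have hP0 : Pn n = Pn (n + 1) - 1 / (2 * (n : ℝ) + 3) := by
    rw [Pn_succ n]
    ring
  unfold alphaN gammaN
  rw [hP2, hP0]
  push_cast
  have hn : (0 : ℝ) ≤ (n : ℝ) := Nat.cast_nonneg n
  have e1 : (2 * ((n : ℝ) + 1) + 3) ≠ 0 := by positivity
  have e2 : (2 * (n : ℝ) + 3) ≠ 0 := by positivity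
  have e3 : ((n : ℝ) + 2) ≠ 0 := by positivity
  have e4 : ((n : ℝ) + 1 + 1) ≠ 0 := by positivity
  have e5 : Pn (n + 1) ≠ 0 := h1.ne'
  field_simp
  ring

lemma alphaN_le (n : ℕ) : alphaN n ≤ 1 := by
  cases n with
  | zero => rw [alphaN_zero]
  | succ n =>
    have h := alphaN_succ_add_gammaN n
    have h2 := gammaN_pos n
    have h3 : 1 / ((n : ℝ) + 2) ≤ 1 := by
      rw [div_le_one (by positivity)]
      have : (0 : ℝ) ≤ n := Nat.cast_nonneg n
      linarith
    linarith

lemma gammaN_le (n : ℕ) : gammaN n ≤ 1 := by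
  have h := alphaN_succ_add_gammaN n
  have h2 := alphaN_pos (n + 1)
  have h3 : 1 / ((n : ℝ) + 2) ≤ 1 := by
    rw [div_le_one (by positivity)]
    have : (0 : ℝ) ≤ n := Nat.cast_nonneg n
    linarith
  linarith

lemma cn_le (n : ℕ) : cn n ≤ 1 := by
  unfold cn
  have hn : (0 : ℝ) ≤ n := Nat.cast_nonneg n
  rw [div_le_one (by positivity)]
  nlinarith

lemma cn_pos (n : ℕ) : 0 < cn n := by
  unfold cn
  positivity

/-- The ratio of the ground state `d n = (n+1) P n`. -/
noncomputable def ratioN (n : ℕ) : ℝ :=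
  ((n : ℝ) + 1) * Pn n / (((n : ℝ) + 2) * Pn (n + 1))

lemma ratioN_pos (n : ℕ) : 0 < ratioN n := by
  have := Pn_pos n
  have := Pn_pos (n + 1)
  unfold ratioN
  positivity

/-- The termwise perfect square. -/
lemma term_square (n : ℕ) (x y : ℝ) :
    alphaN n * x ^ 2 + gammaN n * y ^ 2 - cn n * (x * y) =
      alphaN n * (x - ratioN n * y) ^ 2 := by
  have h1 := (Pn_pos n).ne'
  have h2 := (Pn_pos (n + 1)).ne'
  have hn : (0 : ℝ) ≤ n := Nat.cast_nonneg n
  have e1 : ((n : ℝ) + 1) ≠ 0 := by positivity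
  have e2 : ((n : ℝ) + 2) ≠ 0 := by positivity
  unfold alphaN gammaN cn ratioN
  field_simp
  ring

/-- The critical discrete Hardy inequality, strict form. -/
theorem hardy_strict (A : ℕ → ℝ) (h0 : ∀ n, 0 ≤ A n) (hs : Summable A) (hne : ∃ n, A n ≠ 0) :
    ∑' n, cn n * (A n * A (n + 1)) < ∑' n, A n ^ 2 / ((n : ℝ) + 1) := by
  -- summability of the squares
  have hbd : ∀ n, A n ≤ ∑' m, A m := fun n => hs.le_tsum n (fun m _ => h0 m)
  have hsq : Summable (fun n => A n ^ 2) := by
    refine Summable.of_nonneg_of_le (fun n => sq_nonneg _) (fun n => ?_) (hs.mul_left (∑' m, A m))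
    have := hbd n
    have := h0 n
    nlinarith
  have hsq1 : Summable (fun n => A (n + 1) ^ 2) := (summable_nat_add_iff 1).2 hsq
  have hS : Summable (fun n : ℕ => A n ^ 2 / ((n : ℝ) + 1)) := by
    refine Summable.of_nonneg_of_le (fun n => by positivity) (fun n => ?_) hsq
    have hn : (0 : ℝ) ≤ n := Nat.cast_nonneg n
    exact div_le_self (sq_nonneg _) (by linarith)
  have hα : Summable (fun n => alphaN n * A n ^ 2) := by
    refine Summable.of_nonneg_of_le
      (fun n => mul_nonneg (alphaN_pos n).le (sq_nonneg _)) (fun n => ?_) hsq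
    have := alphaN_le n
    nlinarith [sq_nonneg (A n)]
  have hγ : Summable (fun n => gammaN n * A (n + 1) ^ 2) := by
    refine Summable.of_nonneg_of_le
      (fun n => mul_nonneg (gammaN_pos n).le (sq_nonneg _)) (fun n => ?_) hsq1
    have := gammaN_le n
    nlinarith [sq_nonneg (A (n + 1))]
  have hc : Summable (fun n => cn n * (A n * A (n + 1))) := by
    refine Summable.of_nonneg_of_le
      (fun n => mul_nonneg (cn_pos n).le (mul_nonneg (h0 n) (h0 _))) (fun n => ?_) (hsq.add hsq1)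
    have h1 := cn_le n
    have h2 : 0 ≤ A n * A (n + 1) := mul_nonneg (h0 n) (h0 _)
    have h3 := cn_pos n
    nlinarith [sq_nonneg (A n - A (n + 1)), sq_nonneg (A n), sq_nonneg (A (n + 1))]
  -- rearrangement of the main sum
  have hmain : ∑' n, A n ^ 2 / ((n : ℝ) + 1) =
      ∑' n, alphaN n * A n ^ 2 + ∑' n, gammaN n * A (n + 1) ^ 2 := by
    rw [hS.tsum_eq_zero_add, hα.tsum_eq_zero_add]
    have h1 : ∀ n : ℕ, A (n + 1) ^ 2 / (((n + 1 : ℕ) : ℝ) + 1) =
        alphaN (n + 1) * A (n + 1) ^ 2 + gammaN n * A (n + 1) ^ 2 := by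
      intro n
      rw [← add_mul, alphaN_succ_add_gammaN]
      push_cast
      have hn : (0 : ℝ) ≤ n := Nat.cast_nonneg n
      have e2 : ((n : ℝ) + 2) ≠ 0 := by positivity
      have e3 : ((n : ℝ) + 1 + 1) ≠ 0 := by positivity
      field_simp
      ring
    simp_rw [h1]
    have h2 : Summable (fun n => alphaN (n + 1) * A (n + 1) ^ 2) :=
      (summable_nat_add_iff 1).2 hα
    rw [h2.tsum_add hγ, alphaN_zero]
    simp
    ring
  -- the defect
  have hT : Summable (fun n => alphaN n * (A n - ratioN n * A (n + 1)) ^ 2) := by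
    have : (fun n => alphaN n * (A n - ratioN n * A (n + 1)) ^ 2) =
        fun n => alphaN n * A n ^ 2 + gammaN n * A (n + 1) ^ 2 - cn n * (A n * A (n + 1)) := by
      funext n
      rw [term_square]
    rw [this]
    exact (hα.add hγ).sub hc
  have hdefect : ∑' n, A n ^ 2 / ((n : ℝ) + 1) - ∑' n, cn n * (A n * A (n + 1)) =
      ∑' n, alphaN n * (A n - ratioN n * A (n + 1)) ^ 2 := by
    rw [hmain, ← hα.tsum_add hγ, ← (hα.add hγ).tsum_sub hc]
    congr 1
    funext n
    rw [term_square]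
  suffices hpos : 0 < ∑' n, alphaN n * (A n - ratioN n * A (n + 1)) ^ 2 by
    linarith
  by_contra hcon
  have hnn : ∀ n, 0 ≤ alphaN n * (A n - ratioN n * A (n + 1)) ^ 2 :=
    fun n => mul_nonneg (alphaN_pos n).le (sq_nonneg _)
  have hzero : ∀ n, alphaN n * (A n - ratioN n * A (n + 1)) ^ 2 = 0 := by
    intro n
    by_contra hn
    exact hcon (hT.tsum_pos hnn n (lt_of_le_of_ne (hnn n) (Ne.symm hn)))
  have hrec : ∀ n, A n = ratioN n * A (n + 1) := by
    intro n
    have h := hzero n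
    have h' : (A n - ratioN n * A (n + 1)) ^ 2 = 0 := by
      rcases mul_eq_zero.1 h with h | h
      · exact absurd h (alphaN_pos n).ne'
      · exact h
    have h'' := pow_eq_zero_iff (n := 2) (by norm_num) |>.1 h'
    linarith
  have hratio : ∀ n, ratioN n ≤ 1 := by
    intro n
    unfold ratioN
    have hn : (0 : ℝ) ≤ n := Nat.cast_nonneg n
    have h1 := Pn_pos n
    have h2 : Pn n ≤ Pn (n + 1) := by
      rw [Pn_succ]
      have : (0 : ℝ) < 1 / (2 * (n : ℝ) + 3) := by positivity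
      linarith
    rw [div_le_one (by have := Pn_pos (n + 1); positivity)]
    exact mul_le_mul (by linarith) h2 h1.le (by linarith)
  have hmono : ∀ n, A 0 ≤ A n := by
    intro n
    induction n with
    | zero => exact le_rfl
    | succ n ih =>
      have h := hrec n
      have h1 := hratio n
      have h2 := h0 (n + 1)
      have : ratioN n * A (n + 1) ≤ 1 * A (n + 1) := mul_le_mul_of_nonneg_right h1 h2
      linarith
  have hlim : Filter.Tendsto A Filter.atTop (nhds 0) := hs.tendsto_atTop_zero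
  have hA0 : A 0 ≤ 0 := ge_of_tendsto' hlim hmono
  have hA00 : A 0 = 0 := le_antisymm hA0 (h0 0)
  -- then all vanish, going up: use the exact recursion backwards
  obtain ⟨m, hm⟩ := hne
  have hall : ∀ n, A n = 0 := by
    intro n
    induction n with
    | zero => exact hA00
    | succ n ih =>
      have h := hrec n
      rw [ih] at h
      have hr := (ratioN_pos n).ne'
      rcases mul_eq_zero.1 h.symm with h | h
      · exact absurd h hr
      · exact h
  exact hm (hall m)

end P071
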