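import Mathlib

/-!
P071, Step 1 of notes/P071_blueprint.md: the first two Fourier modes of a `C²` function near the
closed unit disc, with constant radial derivative on the unit circle.
-/

open Metric Complex MeasureTheory intervalIntegral InnerProductSpace Laplacian Set Filter Topology

namespace P071

namespace PolarAux

/-- Differentiation under the integral sign, continuous data. -/
theorem hasDerivAt_param {ρ : ℝ} (G G' : ℝ → ℝ → ℝ)
    (hG : ContinuousOn (Function.uncurry G) (Ioo (-ρ) ρ ×ˢ univ))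
    (hG' : ContinuousOn (Function.uncurry G') (Ioo (-ρ) ρ ×ˢ univ))
    (hd : ∀ r ∈ Ioo (-ρ) ρ, ∀ φ, HasDerivAt (fun s => G s φ) (G' r φ) r)
    {r : ℝ} (hr : r ∈ Ioo (-ρ) ρ) (a b : ℝ) :
    HasDerivAt (fun s => ∫ φ in a..b, G s φ) (∫ φ in a..b, G' r φ) r := by
  have habs : |r| < ρ := abs_lt.mpr hr
  obtain ⟨s, hs1, hs2⟩ := exists_between habs
  have hsub : Icc (-s) s ⊆ Ioo (-ρ) ρ := fun x hx => ⟨by linarith [hx.1], by linarith [hx.2]⟩
  have hK : IsCompact (Icc (-s) s ×ˢ uIcc a b) := isCompact_Icc.prod isCompact_uIcc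
  have hG'K : ContinuousOn (Function.uncurry G') (Icc (-s) s ×ˢ uIcc a b) :=
    hG'.mono (prod_mono hsub (subset_univ _))
  obtain ⟨M, hM⟩ := hK.exists_bound_of_continuousOn hG'K
  have hcont : ∀ x ∈ Ioo (-ρ) ρ, Continuous (G x) := fun x hx => by
    have := hG.comp_continuous (f := fun φ : ℝ => (x, φ)) (by fun_prop)
      (fun φ => ⟨hx, mem_univ _⟩)
    exact this
  have hcont' : ∀ x ∈ Ioo (-ρ) ρ, Continuous (G' x) := fun x hx => by
    have := hG'.comp_continuous (f := fun φ : ℝ => (x, φ)) (by fun_prop)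
      (fun φ => ⟨hx, mem_univ _⟩)
    exact this
  have hrs : r ∈ Ioo (-s) s := abs_lt.mp hs1
  have hsnhds : Ioo (-s) s ∈ 𝓝 r := Ioo_mem_nhds hrs.1 hrs.2
  have := intervalIntegral.hasDerivAt_integral_of_dominated_loc_of_deriv_le
    (μ := volume) (F := G) (F' := G') (x₀ := r) (s := Ioo (-s) s) (bound := fun _ => M)
    (a := a) (b := b) hsnhds ?_ ?_ ?_ ?_ ?_ ?_
  · exact this.2
  · filter_upwards [hsnhds] with x hx
    exact (hcont x (hsub (Ioo_subset_Icc_self hx))).aestronglyMeasurable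
  · exact (hcont r hr).intervalIntegrable _ _
  · exact (hcont' r hr).aestronglyMeasurable
  · refine Filter.Eventually.of_forall fun φ hφ x hx => ?_
    exact hM (x, φ) ⟨Ioo_subset_Icc_self hx, uIoc_subset_uIcc hφ⟩
  · exact intervalIntegrable_const
  · refine Filter.Eventually.of_forall fun φ _ x hx => ?_
    exact hd x (hsub (Ioo_subset_Icc_self hx)) φ

/-- Continuity of a parametric integral, continuous data on a strip. -/
theorem continuousAt_param {ρ : ℝ} (G : ℝ → ℝ → ℝ)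
    (hG : ContinuousOn (Function.uncurry G) (Ioo (-ρ) ρ ×ˢ univ))
    {r : ℝ} (hr : r ∈ Ioo (-ρ) ρ) (a b : ℝ) :
    ContinuousAt (fun s => ∫ φ in a..b, G s φ) r := by
  have habs : |r| < ρ := abs_lt.mpr hr
  obtain ⟨s, hs1, hs2⟩ := exists_between habs
  have hsub : Icc (-s) s ⊆ Ioo (-ρ) ρ := fun x hx => ⟨by linarith [hx.1], by linarith [hx.2]⟩
  have hs0 : 0 ≤ s := (abs_nonneg r).trans hs1.le
  have hmem : ∀ x : ℝ, max (-s) (min s x) ∈ Icc (-s) s := fun x =>
    ⟨le_max_left _ _, max_le (by linarith) (min_le_left _ _)⟩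
  have hc : Continuous (Function.uncurry fun (x φ : ℝ) => G (max (-s) (min s x)) φ) := by
    have := hG.comp_continuous
      (f := fun p : ℝ × ℝ => (max (-s) (min s p.1), p.2)) (by fun_prop)
      (fun p => ⟨hsub (hmem p.1), mem_univ _⟩)
    exact this
  have hc2 := intervalIntegral.continuous_parametric_intervalIntegral_of_continuous'
    (μ := volume) hc a b
  have hrs : r ∈ Ioo (-s) s := abs_lt.mp hs1
  refine hc2.continuousAt.congr ?_
  filter_upwards [Ioo_mem_nhds hrs.1 hrs.2] with x hx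
  have : max (-s) (min s x) = x := by
    rw [min_eq_right hx.2.le, max_eq_right hx.1.le]
  simp [this]

/-- The unit vector. -/
noncomputable def E (φ : ℝ) : ℂ := Complex.exp (φ * I)

lemma norm_E (φ : ℝ) : ‖E φ‖ = 1 := Complex.norm_exp_ofReal_mul_I φ

lemma hasDerivAt_E (φ : ℝ) : HasDerivAt E (I * E φ) φ := by
  have h : HasDerivAt (fun t : ℝ => (t : ℂ) * I) I φ := by
    simpa using ((hasDerivAt_id φ).ofReal_comp).mul_const I
  have h2 := h.cexp
  have : Complex.exp (φ * I) * I = I * E φ := by simp [E, mul_comm]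
  rw [this] at h2
  exact h2

lemma continuous_E : Continuous E := by
  unfold E; fun_prop

lemma E_two_pi : E (2 * Real.pi) = E 0 := by
  simp [E, Complex.exp_two_pi_mul_I]

lemma E_eq (φ : ℝ) : E φ = (Real.cos φ) • (1 : ℂ) + (Real.sin φ) • I := by
  simp [E, Complex.exp_mul_I, Complex.ofReal_cos, Complex.ofReal_sin]

lemma I_E_eq (φ : ℝ) : I * E φ = (-Real.sin φ) • (1 : ℂ) + (Real.cos φ) • I := by
  rw [E_eq]
  simp only [Complex.real_smul]
  push_cast
  ring_nf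
  simp [Complex.I_sq]
  ring

lemma hasDerivAt_radial (r φ : ℝ) : HasDerivAt (fun s : ℝ => (s : ℂ) * E φ) (E φ) r := by
  simpa using ((hasDerivAt_id r).ofReal_comp).mul_const (E φ)

lemma hasDerivAt_angular (r φ : ℝ) :
    HasDerivAt (fun t : ℝ => (r : ℂ) * E t) ((r : ℂ) * (I * E φ)) φ :=
  (hasDerivAt_E φ).const_mul _

lemma mem_ball_of_mem {ρ r : ℝ} (hr : r ∈ Ioo (-ρ) ρ) (φ : ℝ) :
    (r : ℂ) * E φ ∈ ball (0 : ℂ) ρ := by
  simp only [mem_ball_zero_iff, norm_mul, norm_E, mul_one, Complex.norm_real, Real.norm_eq_abs]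
  exact abs_lt.mpr hr

lemma continuous_polar : Continuous (fun p : ℝ × ℝ => (p.1 : ℂ) * E p.2) := by
  have := continuous_E
  fun_prop

variable {k : ℂ → ℝ} {ρ : ℝ}

/-- Radial and angular data. -/
noncomputable def U (k : ℂ → ℝ) (r φ : ℝ) : ℝ := k ((r : ℂ) * E φ)
noncomputable def U1 (k : ℂ → ℝ) (r φ : ℝ) : ℝ := fderiv ℝ k ((r : ℂ) * E φ) (E φ)
noncomputable def U2 (k : ℂ → ℝ) (r φ : ℝ) : ℝ :=
  fderiv ℝ (fderiv ℝ k) ((r : ℂ) * E φ) (E φ) (E φ)
noncomputable def UP (k : ℂ → ℝ) (r φ : ℝ) : ℝ :=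
  fderiv ℝ k ((r : ℂ) * E φ) ((r : ℂ) * (I * E φ))
noncomputable def UPP (k : ℂ → ℝ) (r φ : ℝ) : ℝ :=
  fderiv ℝ (fderiv ℝ k) ((r : ℂ) * E φ) ((r : ℂ) * (I * E φ)) ((r : ℂ) * (I * E φ))
    - r * U1 k r φ

section C2

variable (hk : ContDiffOn ℝ 2 k (ball 0 ρ))
include hk

lemma hasFDerivAt_k {z : ℂ} (hz : z ∈ ball (0 : ℂ) ρ) : HasFDerivAt k (fderiv ℝ k z) z :=
  ((hk.contDiffAt (isOpen_ball.mem_nhds hz)).differentiableAt (by norm_num)).hasFDerivAt

lemma contDiffOn_fderiv : ContDiffOn ℝ 1 (fderiv ℝ k) (ball 0 ρ) :=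
  hk.fderiv_of_isOpen isOpen_ball (by norm_num)

lemma hasFDerivAt_fderiv {z : ℂ} (hz : z ∈ ball (0 : ℂ) ρ) :
    HasFDerivAt (fderiv ℝ k) (fderiv ℝ (fderiv ℝ k) z) z :=
  (((contDiffOn_fderiv hk).contDiffAt (isOpen_ball.mem_nhds hz)).differentiableAt
    (by norm_num)).hasFDerivAt

lemma continuousOn_fderiv2 : ContinuousOn (fderiv ℝ (fderiv ℝ k)) (ball 0 ρ) :=
  ((contDiffOn_fderiv hk).fderiv_of_isOpen isOpen_ball (by norm_num)
    : ContDiffOn ℝ 0 _ _).continuousOn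

lemma continuousOn_fderiv1 : ContinuousOn (fderiv ℝ k) (ball 0 ρ) :=
  (contDiffOn_fderiv hk).continuousOn

lemma hasDerivAt_U_r {r : ℝ} (hr : r ∈ Ioo (-ρ) ρ) (φ : ℝ) :
    HasDerivAt (fun s => U k s φ) (U1 k r φ) r :=
  (hasFDerivAt_k hk (mem_ball_of_mem hr φ)).comp_hasDerivAt r (hasDerivAt_radial r φ)

lemma hasDerivAt_U1_r {r : ℝ} (hr : r ∈ Ioo (-ρ) ρ) (φ : ℝ) :
    HasDerivAt (fun s => U1 k s φ) (U2 k r φ) r := by
  have h := (hasFDerivAt_fderiv hk (mem_ball_of_mem hr φ)).comp_hasDerivAt r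
    (hasDerivAt_radial r φ)
  have h2 := h.clm_apply (hasDerivAt_const r (E φ))
  simpa [U1, U2] using h2

lemma hasDerivAt_U_p {r : ℝ} (hr : r ∈ Ioo (-ρ) ρ) (φ : ℝ) :
    HasDerivAt (fun t => U k r t) (UP k r φ) φ :=
  (hasFDerivAt_k hk (mem_ball_of_mem hr φ)).comp_hasDerivAt φ (hasDerivAt_angular r φ)

lemma hasDerivAt_UP_p {r : ℝ} (hr : r ∈ Ioo (-ρ) ρ) (φ : ℝ) :
    HasDerivAt (fun t => UP k r t) (UPP k r φ) φ := by
  have h := (hasFDerivAt_fderiv hk (mem_ball_of_mem hr φ)).comp_hasDerivAt φ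
    (hasDerivAt_angular r φ)
  have hv : HasDerivAt (fun t : ℝ => (r : ℂ) * (I * E t)) (-((r : ℝ) • E φ)) φ := by
    have := ((hasDerivAt_E φ).const_mul I).const_mul (r : ℂ)
    have hh : (r : ℂ) * (I * (I * E φ)) = -((r : ℝ) • E φ) := by
      rw [Complex.real_smul]
      linear_combination (r : ℂ) * E φ * Complex.I_mul_I
    rw [hh] at this
    exact this
  have h2 := h.clm_apply hv
  have hval : UPP k r φ = (fderiv ℝ (fderiv ℝ k) ((r : ℂ) * E φ) ((r : ℂ) * (I * E φ)))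
      ((r : ℂ) * (I * E φ)) + (fderiv ℝ k ((r : ℂ) * E φ)) (-((r : ℝ) • E φ)) := by
    simp only [UPP, U1, map_neg, map_smul, smul_eq_mul]
    ring
  rw [hval]
  exact h2

/-- The polar form of the Laplacian. -/
lemma polar_laplacian {r : ℝ} (_hr : r ∈ Ioo (-ρ) ρ) (φ : ℝ) :
    r ^ 2 * Δ k ((r : ℂ) * E φ) = r ^ 2 * U2 k r φ + r * U1 k r φ + UPP k r φ := by
  have hL : Δ k ((r : ℂ) * E φ) =
      fderiv ℝ (fderiv ℝ k) ((r : ℂ) * E φ) 1 1 + fderiv ℝ (fderiv ℝ k) ((r : ℂ) * E φ) I I := by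
    rw [laplacian_eq_iteratedFDeriv_complexPlane]
    simp [iteratedFDeriv_two_apply]
  set z := (r : ℂ) * E φ with hz
  have hcs := Real.sin_sq_add_cos_sq φ
  have hr1 : ((r : ℂ) * (I * E φ)) = (r : ℝ) • (I * E φ) := by rw [Complex.real_smul]
  simp only [U2, U1, UPP, hL, hr1, map_smul, smul_apply, smul_eq_mul]
  rw [← hz, I_E_eq, E_eq]
  simp only [map_add, map_smul, add_apply, smul_apply,
    smul_eq_mul]
  linear_combination (-(r ^ 2 * (fderiv ℝ (fderiv ℝ k) z 1 1 + fderiv ℝ (fderiv ℝ k) z I I))) * hcs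

/-- Continuity of the polar data on the strip. -/
lemma continuousOn_U : ContinuousOn (Function.uncurry (U k)) (Ioo (-ρ) ρ ×ˢ (univ : Set ℝ)) := by
  refine ContinuousOn.comp (t := ball (0 : ℂ) ρ) (f := fun p : ℝ × ℝ => (p.1 : ℂ) * E p.2) (g := k)
    hk.continuousOn continuous_polar.continuousOn ?_
  rintro ⟨r, φ⟩ ⟨hr, _⟩
  exact mem_ball_of_mem hr φ

lemma continuousOn_fd1 : ContinuousOn (fun p : ℝ × ℝ => fderiv ℝ k ((p.1 : ℂ) * E p.2))
    (Ioo (-ρ) ρ ×ˢ (univ : Set ℝ)) := by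
  refine ContinuousOn.comp (t := ball (0 : ℂ) ρ) (f := fun p : ℝ × ℝ => (p.1 : ℂ) * E p.2)
    (g := fderiv ℝ k) (continuousOn_fderiv1 hk) continuous_polar.continuousOn ?_
  rintro ⟨r, φ⟩ ⟨hr, _⟩
  exact mem_ball_of_mem hr φ

lemma continuousOn_fd2 : ContinuousOn (fun p : ℝ × ℝ => fderiv ℝ (fderiv ℝ k) ((p.1 : ℂ) * E p.2))
    (Ioo (-ρ) ρ ×ˢ (univ : Set ℝ)) := by
  refine ContinuousOn.comp (t := ball (0 : ℂ) ρ) (f := fun p : ℝ × ℝ => (p.1 : ℂ) * E p.2)
    (g := fderiv ℝ (fderiv ℝ k)) (continuousOn_fderiv2 hk) continuous_polar.continuousOn ?_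
  rintro ⟨r, φ⟩ ⟨hr, _⟩
  exact mem_ball_of_mem hr φ

lemma continuousOn_U1 : ContinuousOn (Function.uncurry (U1 k)) (Ioo (-ρ) ρ ×ˢ (univ : Set ℝ)) := by
  have hE : Continuous (fun p : ℝ × ℝ => E p.2) := continuous_E.comp continuous_snd
  exact (continuousOn_fd1 hk).clm_apply hE.continuousOn

lemma continuousOn_U2 : ContinuousOn (Function.uncurry (U2 k)) (Ioo (-ρ) ρ ×ˢ (univ : Set ℝ)) := by
  have hE : Continuous (fun p : ℝ × ℝ => E p.2) := continuous_E.comp continuous_snd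
  exact ((continuousOn_fd2 hk).clm_apply hE.continuousOn).clm_apply hE.continuousOn

lemma continuousOn_lap :
    ContinuousOn (fun p : ℝ × ℝ => Δ k ((p.1 : ℂ) * E p.2)) (Ioo (-ρ) ρ ×ˢ (univ : Set ℝ)) := by
  have hL : ∀ z : ℂ, Δ k z = fderiv ℝ (fderiv ℝ k) z 1 1 + fderiv ℝ (fderiv ℝ k) z I I := by
    intro z
    rw [laplacian_eq_iteratedFDeriv_complexPlane]
    simp [iteratedFDeriv_two_apply]
  simp only [hL]
  have h1 := continuousOn_fd2 hk
  exact ((h1.clm_apply continuousOn_const).clm_apply continuousOn_const).add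
    ((h1.clm_apply continuousOn_const).clm_apply continuousOn_const)

lemma continuous_U_angle {r : ℝ} (hr : r ∈ Ioo (-ρ) ρ) : Continuous (U k r) :=
  (continuousOn_U hk).comp_continuous (f := fun φ : ℝ => (r, φ)) (by fun_prop)
    (fun φ => ⟨hr, mem_univ _⟩)

lemma continuous_U1_angle {r : ℝ} (hr : r ∈ Ioo (-ρ) ρ) : Continuous (U1 k r) :=
  (continuousOn_U1 hk).comp_continuous (f := fun φ : ℝ => (r, φ)) (by fun_prop)
    (fun φ => ⟨hr, mem_univ _⟩)

lemma continuous_U2_angle {r : ℝ} (hr : r ∈ Ioo (-ρ) ρ) : Continuous (U2 k r) :=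
  (continuousOn_U2 hk).comp_continuous (f := fun φ : ℝ => (r, φ)) (by fun_prop)
    (fun φ => ⟨hr, mem_univ _⟩)

lemma continuous_lap_angle {r : ℝ} (hr : r ∈ Ioo (-ρ) ρ) :
    Continuous (fun φ : ℝ => Δ k ((r : ℂ) * E φ)) :=
  (continuousOn_lap hk).comp_continuous (f := fun φ : ℝ => (r, φ)) (by fun_prop)
    (fun φ => ⟨hr, mem_univ _⟩)

lemma continuous_UP_angle {r : ℝ} (hr : r ∈ Ioo (-ρ) ρ) : Continuous (UP k r) :=
  continuous_iff_continuousAt.mpr fun φ => (hasDerivAt_UP_p hk hr φ).continuousAt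

lemma continuous_UPP_angle {r : ℝ} (hr : r ∈ Ioo (-ρ) ρ) : Continuous (UPP k r) := by
  have h2 := continuous_lap_angle hk hr
  have h3 := continuous_U2_angle hk hr
  have h4 := continuous_U1_angle hk hr
  have : UPP k r = fun φ => r ^ 2 * Δ k ((r : ℂ) * E φ) - r ^ 2 * U2 k r φ - r * U1 k r φ := by
    funext φ
    rw [polar_laplacian hk hr φ]
    ring
  rw [this]
  fun_prop

/-- The angular term integrates by parts twice, for a periodic weight. -/
lemma integral_UPP_weight {r : ℝ} (hr : r ∈ Ioo (-ρ) ρ) {w w1 w2 : ℝ → ℝ}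
    (hw : ∀ φ, HasDerivAt w (w1 φ) φ) (hw1 : ∀ φ, HasDerivAt w1 (w2 φ) φ)
    (hw2 : Continuous w2) (p0 : w (2 * Real.pi) = w 0) (p1 : w1 (2 * Real.pi) = w1 0) :
    ∫ φ in (0 : ℝ)..(2 * Real.pi), UPP k r φ * w φ =
      ∫ φ in (0 : ℝ)..(2 * Real.pi), U k r φ * w2 φ := by
  have hwc : Continuous w := continuous_iff_continuousAt.mpr fun φ => (hw φ).continuousAt
  have hUc := continuous_U_angle hk hr
  have hUPPc := continuous_UPP_angle hk hr
  have hder : ∀ φ ∈ uIcc (0 : ℝ) (2 * Real.pi),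
      HasDerivAt (fun t => UP k r t * w t - U k r t * w1 t)
        (UPP k r φ * w φ - U k r φ * w2 φ) φ := by
    intro φ _
    have := ((hasDerivAt_UP_p hk hr φ).mul (hw φ)).sub ((hasDerivAt_U_p hk hr φ).mul (hw1 φ))
    refine HasDerivAt.congr_deriv (f := fun t => UP k r t * w t - U k r t * w1 t) this ?_
    ring
  have hint := intervalIntegral.integral_eq_sub_of_hasDerivAt hder
    (Continuous.intervalIntegrable (by fun_prop) _ _)
  have hbd : (UP k r (2 * Real.pi) * w (2 * Real.pi) - U k r (2 * Real.pi) * w1 (2 * Real.pi)) -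
      (UP k r 0 * w 0 - U k r 0 * w1 0) = 0 := by
    simp only [UP, U, E_two_pi, p0, p1]
    exact sub_self _
  rw [hbd, intervalIntegral.integral_sub
    (Continuous.intervalIntegrable (by fun_prop) _ _)
    (Continuous.intervalIntegrable (by fun_prop) _ _)] at hint
  linarith

/-- The radial moments of a weight. -/
noncomputable def MA (k : ℂ → ℝ) (w : ℝ → ℝ) (r : ℝ) : ℝ :=
  ∫ φ in (0 : ℝ)..(2 * Real.pi), U k r φ * w φ
noncomputable def MA1 (k : ℂ → ℝ) (w : ℝ → ℝ) (r : ℝ) : ℝ :=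
  ∫ φ in (0 : ℝ)..(2 * Real.pi), U1 k r φ * w φ
noncomputable def MA2 (k : ℂ → ℝ) (w : ℝ → ℝ) (r : ℝ) : ℝ :=
  ∫ φ in (0 : ℝ)..(2 * Real.pi), U2 k r φ * w φ
noncomputable def MB (k : ℂ → ℝ) (w : ℝ → ℝ) (r : ℝ) : ℝ :=
  ∫ φ in (0 : ℝ)..(2 * Real.pi), Δ k ((r : ℂ) * E φ) * w φ

omit hk in
lemma continuousOn_weight {F : ℝ → ℝ → ℝ}
    (hF : ContinuousOn (Function.uncurry F) (Ioo (-ρ) ρ ×ˢ (univ : Set ℝ)))
    {w : ℝ → ℝ} (hw : Continuous w) :
    ContinuousOn (Function.uncurry fun r φ => F r φ * w φ) (Ioo (-ρ) ρ ×ˢ (univ : Set ℝ)) :=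
  hF.mul (hw.comp continuous_snd).continuousOn

lemma hasDerivAt_MA {w : ℝ → ℝ} (hw : Continuous w) {r : ℝ} (hr : r ∈ Ioo (-ρ) ρ) :
    HasDerivAt (MA k w) (MA1 k w r) r :=
  hasDerivAt_param (ρ := ρ) (fun r φ => U k r φ * w φ) (fun r φ => U1 k r φ * w φ)
    (continuousOn_weight (continuousOn_U hk) hw) (continuousOn_weight (continuousOn_U1 hk) hw)
    (fun _ hx φ => (hasDerivAt_U_r hk hx φ).mul_const _) hr _ _

lemma hasDerivAt_MA1 {w : ℝ → ℝ} (hw : Continuous w) {r : ℝ} (hr : r ∈ Ioo (-ρ) ρ) :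
    HasDerivAt (MA1 k w) (MA2 k w r) r :=
  hasDerivAt_param (ρ := ρ) (fun r φ => U1 k r φ * w φ) (fun r φ => U2 k r φ * w φ)
    (continuousOn_weight (continuousOn_U1 hk) hw) (continuousOn_weight (continuousOn_U2 hk) hw)
    (fun _ hx φ => (hasDerivAt_U1_r hk hx φ).mul_const _) hr _ _

lemma continuousAt_MB {w : ℝ → ℝ} (hw : Continuous w) {r : ℝ} (hr : r ∈ Ioo (-ρ) ρ) :
    ContinuousAt (MB k w) r :=
  continuousAt_param (ρ := ρ) (fun r φ => Δ k ((r : ℂ) * E φ) * w φ)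
    (continuousOn_weight (F := fun r φ => Δ k ((r : ℂ) * E φ)) (continuousOn_lap hk) hw) hr _ _

/-- The moment form of the polar identity. -/
lemma moment_identity {r : ℝ} (hr : r ∈ Ioo (-ρ) ρ) {w w1 w2 : ℝ → ℝ}
    (hw : ∀ φ, HasDerivAt w (w1 φ) φ) (hw1 : ∀ φ, HasDerivAt w1 (w2 φ) φ)
    (hw2 : Continuous w2) (p0 : w (2 * Real.pi) = w 0) (p1 : w1 (2 * Real.pi) = w1 0) :
    r ^ 2 * MB k w r = r ^ 2 * MA2 k w r + r * MA1 k w r + MA k w2 r := by
  have hwc : Continuous w := continuous_iff_continuousAt.mpr fun φ => (hw φ).continuousAt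
  have h1 := continuous_lap_angle hk hr
  have h2 := continuous_U2_angle hk hr
  have h3 := continuous_U1_angle hk hr
  have h4 := continuous_UPP_angle hk hr
  unfold MB MA2 MA1 MA
  rw [← integral_UPP_weight hk hr hw hw1 hw2 p0 p1, ← intervalIntegral.integral_const_mul,
    ← intervalIntegral.integral_const_mul, ← intervalIntegral.integral_const_mul,
    ← intervalIntegral.integral_add (Continuous.intervalIntegrable (by fun_prop) _ _)
      (Continuous.intervalIntegrable (by fun_prop) _ _),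
    ← intervalIntegral.integral_add (Continuous.intervalIntegrable (by fun_prop) _ _)
      (Continuous.intervalIntegrable (by fun_prop) _ _)]
  refine intervalIntegral.integral_congr fun φ _ => ?_
  have := polar_laplacian hk hr φ
  linear_combination w φ * this

end C2

lemma hasDerivAt_cos_sub (α φ : ℝ) :
    HasDerivAt (fun t => Real.cos (t - α)) (-Real.sin (φ - α)) φ := by
  have := (Real.hasDerivAt_cos (φ - α)).comp φ ((hasDerivAt_id φ).sub_const α)
  exact HasDerivAt.congr_deriv (f := fun t => Real.cos (t - α)) this (by simp)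

lemma hasDerivAt_neg_sin_sub (α φ : ℝ) :
    HasDerivAt (fun t => -Real.sin (t - α)) (-Real.cos (φ - α)) φ := by
  have := ((Real.hasDerivAt_sin (φ - α)).comp φ ((hasDerivAt_id φ).sub_const α)).neg
  exact HasDerivAt.congr_deriv (f := fun t => -Real.sin (t - α)) this (by simp)

lemma integral_cos_sub (α : ℝ) :
    ∫ φ in (0 : ℝ)..(2 * Real.pi), Real.cos (φ - α) = 0 := by
  rw [intervalIntegral.integral_comp_sub_right (fun x => Real.cos x) α, integral_cos]
  have : Real.sin (2 * Real.pi - α) = Real.sin (0 - α) := by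
    rw [Real.sin_two_pi_sub, zero_sub, Real.sin_neg]
  rw [this, sub_self]

/-- The first moment of a linear form. -/
lemma integral_linear_cos (L : ℂ →L[ℝ] ℝ) (α : ℝ) :
    ∫ φ in (0 : ℝ)..(2 * Real.pi), L (E φ) * Real.cos (φ - α) = Real.pi * L (E α) := by
  have hEa : L (E α) = Real.cos α * L 1 + Real.sin α * L I := by
    rw [E_eq]; simp only [map_add, map_smul, smul_eq_mul]
  have hder : ∀ φ ∈ uIcc (0 : ℝ) (2 * Real.pi), HasDerivAt
      (fun t => L 1 * (t * Real.cos α / 2 + Real.sin (2 * t - α) / 4) +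
        L I * (t * Real.sin α / 2 - Real.cos (2 * t - α) / 4))
      (L (E φ) * Real.cos (φ - α)) φ := by
    intro φ _
    have h2 : HasDerivAt (fun t : ℝ => 2 * t - α) 2 φ := by
      simpa using ((hasDerivAt_id φ).const_mul 2).sub_const α
    have hs := (Real.hasDerivAt_sin (2 * φ - α)).comp φ h2
    have hc := (Real.hasDerivAt_cos (2 * φ - α)).comp φ h2
    have hid : HasDerivAt (fun t : ℝ => t) 1 φ := hasDerivAt_id φ
    have hA := (((hid.mul_const (Real.cos α)).div_const 2).add (hs.div_const 4)).const_mul (L 1)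
    have hB := (((hid.mul_const (Real.sin α)).div_const 2).sub (hc.div_const 4)).const_mul (L I)
    refine HasDerivAt.congr_deriv (hA.add hB) ?_
    rw [E_eq]
    simp only [map_add, map_smul, smul_eq_mul]
    have e1 : Real.sin (2 * φ - α) =
        2 * Real.sin φ * Real.cos φ * Real.cos α - (Real.cos φ ^ 2 - Real.sin φ ^ 2) * Real.sin α := by
      rw [Real.sin_sub, Real.sin_two_mul, Real.cos_two_mul, Real.cos_sq']
      ring
    have e2 : Real.cos (2 * φ - α) =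
        (Real.cos φ ^ 2 - Real.sin φ ^ 2) * Real.cos α + 2 * Real.sin φ * Real.cos φ * Real.sin α := by
      rw [Real.cos_sub, Real.sin_two_mul, Real.cos_two_mul, Real.cos_sq']
      ring
    rw [Real.cos_sub φ α, e1, e2]
    have hcs := Real.sin_sq_add_cos_sq φ
    linear_combination (-(L 1 * Real.cos α + L I * Real.sin α) / 2) * hcs
  rw [intervalIntegral.integral_eq_sub_of_hasDerivAt hder (by
    apply Continuous.intervalIntegrable
    have := continuous_E
    fun_prop), hEa]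
  have e3 : Real.sin (2 * (2 * Real.pi) - α) = Real.sin (2 * 0 - α) := by
    have : 2 * (2 * Real.pi) - α = (2 * 0 - α) + 2 * Real.pi + 2 * Real.pi := by ring
    rw [this, Real.sin_add_two_pi, Real.sin_add_two_pi]
  have e4 : Real.cos (2 * (2 * Real.pi) - α) = Real.cos (2 * 0 - α) := by
    have : 2 * (2 * Real.pi) - α = (2 * 0 - α) + 2 * Real.pi + 2 * Real.pi := by ring
    rw [this, Real.cos_add_two_pi, Real.cos_add_two_pi]
  rw [e3, e4]
  ring

section Modes

variable (hρ : 1 < ρ) (hk : ContDiffOn ℝ 2 k (ball 0 ρ))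
include hρ hk

omit hk in
lemma mem_of_Icc {r : ℝ} (hr : r ∈ Icc (0 : ℝ) 1) : r ∈ Ioo (-ρ) ρ :=
  ⟨by linarith [hr.1], by linarith [hr.2]⟩

theorem mode_zero_aux {κ : ℝ} (hBC : ∀ z : ℂ, ‖z‖ = 1 → fderiv ℝ k z z = κ) :
    2 * Real.pi * κ = ∫ r in (0 : ℝ)..1, r * MB k (fun _ => 1) r := by
  have h0 : ∀ φ : ℝ, HasDerivAt (fun _ : ℝ => (1 : ℝ)) 0 φ := fun φ => hasDerivAt_const φ 1
  have h1 : ∀ φ : ℝ, HasDerivAt (fun _ : ℝ => (0 : ℝ)) 0 φ := fun φ => hasDerivAt_const φ 0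
  have hw : Continuous (fun _ : ℝ => (1 : ℝ)) := continuous_const
  have hmem0 : (0 : ℝ) ∈ Ioo (-ρ) ρ := mem_of_Icc hρ ⟨le_rfl, zero_le_one⟩
  have hmem1 : (1 : ℝ) ∈ Ioo (-ρ) ρ := mem_of_Icc hρ ⟨zero_le_one, le_rfl⟩
  have hQ : ∀ r ∈ Ioo (0 : ℝ) 1, HasDerivAt (fun r => r * MA1 k (fun _ => 1) r)
      (r * MB k (fun _ => 1) r) r := by
    intro r hr
    have hrm : r ∈ Ioo (-ρ) ρ := mem_of_Icc hρ (Ioo_subset_Icc_self hr)
    have h := (hasDerivAt_id r).mul (hasDerivAt_MA1 hk hw hrm)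
    have hid := moment_identity hk hrm h0 h1 continuous_const rfl rfl
    have hA0 : MA k (fun _ => 0) r = 0 := by simp [MA]
    rw [hA0] at hid
    have hr0 : r ≠ 0 := hr.1.ne'
    have : r * MB k (fun _ => 1) r = 1 * MA1 k (fun _ => 1) r + r * MA2 k (fun _ => 1) r := by
      apply mul_left_cancel₀ hr0
      linear_combination hid
    rw [this]
    exact h
  have hint : IntervalIntegrable (fun r => r * MB k (fun _ => 1) r) volume 0 1 := by
    apply ContinuousOn.intervalIntegrable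
    rw [uIcc_of_le zero_le_one]
    intro r hr
    exact (continuousAt_id.mul (continuousAt_MB hk hw (mem_of_Icc hρ hr))).continuousWithinAt
  have hcont : ∀ r ∈ Ioo (-ρ) ρ, ContinuousAt (fun r => r * MA1 k (fun _ => 1) r) r := fun r hr =>
    continuousAt_id.mul (hasDerivAt_MA1 hk hw hr).continuousAt
  have hmain := intervalIntegral.integral_eq_sub_of_hasDerivAt_of_tendsto zero_lt_one hQ hint
    ((hcont 0 hmem0).tendsto.mono_left nhdsWithin_le_nhds)
    ((hcont 1 hmem1).tendsto.mono_left nhdsWithin_le_nhds)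
  rw [hmain]
  have : MA1 k (fun _ => 1) 1 = 2 * Real.pi * κ := by
    unfold MA1
    have : ∀ φ : ℝ, U1 k 1 φ * 1 = κ := by
      intro φ
      simp only [U1, Complex.ofReal_one, one_mul, mul_one]
      exact hBC _ (norm_E φ)
    simp only [this]
    simp
  simp [this]

theorem mode_one_aux {κ : ℝ} (hBC : ∀ z : ℂ, ‖z‖ = 1 → fderiv ℝ k z z = κ) (α : ℝ) :
    -(2 * Real.pi * fderiv ℝ k 0 (E α)) = ∫ r in (0 : ℝ)..1, (1 + r ^ 2) *
      MB k (fun φ => Real.cos (φ - α)) r := by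
  set w : ℝ → ℝ := fun φ => Real.cos (φ - α) with hwdef
  have hw : Continuous w := by rw [hwdef]; fun_prop
  have hmem0 : (0 : ℝ) ∈ Ioo (-ρ) ρ := mem_of_Icc hρ ⟨le_rfl, zero_le_one⟩
  have hmem1 : (1 : ℝ) ∈ Ioo (-ρ) ρ := mem_of_Icc hρ ⟨zero_le_one, le_rfl⟩
  have hA := fun {r : ℝ} (hr : r ∈ Ioo (-ρ) ρ) => hasDerivAt_MA hk hw hr
  have hA1 := fun {r : ℝ} (hr : r ∈ Ioo (-ρ) ρ) => hasDerivAt_MA1 hk hw hr
  -- the moment identity with `w2 = -w`
  have hid : ∀ r ∈ Ioo (-ρ) ρ, r ^ 2 * MB k w r =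
      r ^ 2 * MA2 k w r + r * MA1 k w r - MA k w r := by
    intro r hr
    have h := moment_identity hk hr (hasDerivAt_cos_sub α) (hasDerivAt_neg_sin_sub α)
      (w2 := fun φ => -Real.cos (φ - α)) (by fun_prop)
      (by rw [Real.cos_sub, Real.cos_sub]; simp)
      (by rw [Real.sin_sub, Real.sin_sub]; simp)
    have hneg : MA k (fun φ => -Real.cos (φ - α)) r = - MA k w r := by
      simp only [MA, mul_neg, intervalIntegral.integral_neg, hwdef]
    rw [hneg] at h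
    linear_combination h
  set Φ : ℝ → ℝ := fun r => (1 + r ^ 2) * MA1 k w r + (1 / r - r) * MA k w r with hΦ
  have hder : ∀ r ∈ Ioo (0 : ℝ) 1, HasDerivAt Φ ((1 + r ^ 2) * MB k w r) r := by
    intro r hr
    have hrm : r ∈ Ioo (-ρ) ρ := mem_of_Icc hρ (Ioo_subset_Icc_self hr)
    have hr0 : r ≠ 0 := hr.1.ne'
    have h1 : HasDerivAt (fun t : ℝ => 1 + t ^ 2) (2 * r) r := by
      simpa using (hasDerivAt_pow 2 r).const_add 1
    have h2 : HasDerivAt (fun t : ℝ => 1 / t - t) (-(1 / r ^ 2) - 1) r := by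
      have := (hasDerivAt_inv hr0).sub (hasDerivAt_id r)
      refine HasDerivAt.congr_of_eventuallyEq (f := fun t : ℝ => t⁻¹ - t)
        (HasDerivAt.congr_deriv (f := fun t : ℝ => t⁻¹ - t) this (by simp [one_div])) ?_
      exact Filter.Eventually.of_forall fun t => by simp [one_div]
    have := (h1.mul (hA1 hrm)).add (h2.mul (hA hrm))
    refine HasDerivAt.congr_deriv (f := Φ) this ?_
    have hMB : MB k w r = MA2 k w r + MA1 k w r / r - MA k w r / r ^ 2 := by
      have hr2 : r ^ 2 ≠ 0 := pow_ne_zero 2 hr0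
      apply mul_left_cancel₀ hr2
      rw [hid r hrm]
      field_simp
    rw [hMB]
    field_simp
    ring
  have hint : IntervalIntegrable (fun r => (1 + r ^ 2) * MB k w r) volume 0 1 := by
    apply ContinuousOn.intervalIntegrable
    rw [uIcc_of_le zero_le_one]
    intro r hr
    have h1 : ContinuousAt (fun r : ℝ => 1 + r ^ 2) r := by fun_prop
    exact (h1.mul (continuousAt_MB hk hw (mem_of_Icc hρ hr))).continuousWithinAt
  have hcosint : ∀ c : ℝ, ∫ φ in (0 : ℝ)..(2 * Real.pi), c * w φ = 0 := by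
    intro c
    rw [intervalIntegral.integral_const_mul, hwdef, integral_cos_sub, mul_zero]
  have hA0 : MA k w 0 = 0 := by
    have : ∀ φ : ℝ, U k 0 φ * w φ = k 0 * w φ := by
      intro φ; simp [U]
    simp only [MA, this]
    exact hcosint _
  have hA11 : MA1 k w 1 = 0 := by
    have : ∀ φ : ℝ, U1 k 1 φ * w φ = κ * w φ := by
      intro φ
      simp only [U1, Complex.ofReal_one, one_mul]
      rw [hBC _ (norm_E φ)]
    simp only [MA1, this]
    exact hcosint _
  have hA10 : MA1 k w 0 = Real.pi * fderiv ℝ k 0 (E α) := by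
    have : ∀ φ : ℝ, U1 k 0 φ * w φ = fderiv ℝ k 0 (E φ) * Real.cos (φ - α) := by
      intro φ; simp [U1, hwdef]
    simp only [MA1, this]
    exact integral_linear_cos _ α
  -- limit at `1`
  have hlim1 : Tendsto Φ (𝓝[<] 1) (𝓝 0) := by
    have hc : ContinuousAt Φ 1 := by
      have h1 : ContinuousAt (fun r : ℝ => 1 + r ^ 2) 1 := by fun_prop
      have h2 : ContinuousAt (fun r : ℝ => 1 / r - r) 1 :=
        (continuousAt_const.div continuousAt_id one_ne_zero).sub continuousAt_id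
      exact (h1.mul (hA1 hmem1).continuousAt).add (h2.mul (hA hmem1).continuousAt)
    have hv : Φ 1 = 0 := by
      simp [hΦ, hA11]
    rw [← hv]
    exact hc.tendsto.mono_left nhdsWithin_le_nhds
  -- limit at `0`
  have hlim0 : Tendsto Φ (𝓝[>] 0) (𝓝 (2 * MA1 k w 0)) := by
    have h1 : Tendsto (fun r : ℝ => (1 + r ^ 2) * MA1 k w r) (𝓝[>] 0) (𝓝 (MA1 k w 0)) := by
      have hc : ContinuousAt (fun r : ℝ => (1 + r ^ 2) * MA1 k w r) 0 := by
        have h1 : ContinuousAt (fun r : ℝ => 1 + r ^ 2) 0 := by fun_prop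
        exact h1.mul (hA1 hmem0).continuousAt
      have := hc.tendsto.mono_left (nhdsWithin_le_nhds (s := Ioi (0 : ℝ)))
      simpa using this
    have h2 : Tendsto (fun r : ℝ => (1 / r - r) * MA k w r) (𝓝[>] 0) (𝓝 (MA1 k w 0)) := by
      have hs := (hA hmem0).tendsto_slope_zero_right
      have hp : Tendsto (fun r : ℝ => 1 - r ^ 2) (𝓝[>] 0) (𝓝 1) := by
        have hc : ContinuousAt (fun r : ℝ => 1 - r ^ 2) 0 := by fun_prop
        have := hc.tendsto.mono_left (nhdsWithin_le_nhds (s := Ioi (0 : ℝ)))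
        simpa using this
      have hm := hp.mul hs
      rw [one_mul] at hm
      refine hm.congr' ?_
      filter_upwards [self_mem_nhdsWithin] with r hr
      have hr0 : r ≠ 0 := (mem_Ioi.mp hr).ne'
      simp only [zero_add, hA0, sub_zero, smul_eq_mul]
      field_simp
    have := h1.add h2
    rw [← two_mul] at this
    exact this
  have hmain := intervalIntegral.integral_eq_sub_of_hasDerivAt_of_tendsto zero_lt_one hder hint
    hlim0 hlim1
  rw [hmain, hA10]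
  ring

end Modes

end PolarAux

/-- Mode 0: the flux identity. -/
theorem mode_zero {k : ℂ → ℝ} {ρ : ℝ} (hρ : 1 < ρ) (hk : ContDiffOn ℝ 2 k (ball 0 ρ)) {κ : ℝ}
    (hBC : ∀ z : ℂ, ‖z‖ = 1 → fderiv ℝ k z z = κ) :
    2 * Real.pi * κ = ∫ r in (0 : ℝ)..1, r *
      ∫ φ in (0 : ℝ)..(2 * Real.pi), Δ k (r * Complex.exp (φ * I)) := by
  have := PolarAux.mode_zero_aux hρ hk hBC
  simpa [PolarAux.MB, PolarAux.E] using this

/-- Mode 1: the gradient at the centre is the first moment of the Laplacian against the Neumann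
dipole `r + 1/r`. -/
theorem mode_one {k : ℂ → ℝ} {ρ : ℝ} (hρ : 1 < ρ) (hk : ContDiffOn ℝ 2 k (ball 0 ρ)) {κ : ℝ}
    (hBC : ∀ z : ℂ, ‖z‖ = 1 → fderiv ℝ k z z = κ) (α : ℝ) :
    -(2 * Real.pi * fderiv ℝ k 0 (Complex.exp (α * I))) = ∫ r in (0 : ℝ)..1, (1 + r ^ 2) *
      ∫ φ in (0 : ℝ)..(2 * Real.pi), Δ k (r * Complex.exp (φ * I)) * Real.cos (φ - α) := by
  have := PolarAux.mode_one_aux hρ hk hBC α
  simpa [PolarAux.MB, PolarAux.E] using this

end P071
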