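import Vale.Agent.Lib.P071.Series
import Vale.Agent.Lib.P071.Polar

/-!
P071: the theorem in the unit disc, at the centre.
-/

open Metric Complex MeasureTheory intervalIntegral InnerProductSpace Laplacian

namespace P071

/-- `k` is `C²` near the closed disc, `Δ k = |f|²` on the open disc, `∂_r k = c/2` on the circle.
Then for every unit `q`, the derivative of `k` at `0` in the direction `q` is larger than `-c`. -/
theorem disc_origin {f : ℂ → ℂ} {R : ℝ} (hR : 1 < R) (hf : DifferentiableOn ℂ f (ball 0 R))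
    (hf0 : ∃ z ∈ ball (0 : ℂ) 1, f z ≠ 0) {k : ℂ → ℝ} {ρ : ℝ} (hρ : 1 < ρ)
    (hk : ContDiffOn ℝ 2 k (ball 0 ρ)) (hΔ : ∀ z ∈ ball (0 : ℂ) 1, Δ k z = ‖f z‖ ^ 2)
    {c : ℝ} (hBC : ∀ z : ℂ, ‖z‖ = 1 → fderiv ℝ k z z = c / 2) {q : ℂ} (hq : ‖q‖ = 1) :
    0 < fderiv ℝ k 0 q + c := by
  -- q = exp(α i)
  obtain ⟨α, hα⟩ : ∃ α : ℝ, Complex.exp (α * I) = q := by
    refine ⟨Complex.arg q, ?_⟩
    have := Complex.norm_mul_exp_arg_mul_I q
    rw [hq] at this
    simpa using this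
  have h0 := mode_zero hρ hk hBC
  have h1 := mode_one hρ hk hBC α
  rw [hα] at h1
  have hkey := key_integral_lt f hR hf hf0 α
  -- Δ k = ‖f‖² on the closed disc: needed only for r in [0,1)
  have hcongr0 : (∫ r in (0 : ℝ)..1, r *
      ∫ φ in (0 : ℝ)..(2 * Real.pi), Δ k (r * Complex.exp (φ * I))) =
      ∫ r in (0 : ℝ)..1, r *
        ∫ φ in (0 : ℝ)..(2 * Real.pi), ‖f (r * Complex.exp (φ * I))‖ ^ 2 := by
    rw [intervalIntegral.integral_of_le zero_le_one, intervalIntegral.integral_of_le zero_le_one,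
      MeasureTheory.integral_Ioc_eq_integral_Ioo, MeasureTheory.integral_Ioc_eq_integral_Ioo]
    refine MeasureTheory.setIntegral_congr_fun measurableSet_Ioo (fun r hr => ?_)
    congr 1
    refine intervalIntegral.integral_congr (fun φ _ => ?_)
    apply hΔ
    simp [abs_of_pos hr.1, hr.2]
  have hcongr1 : (∫ r in (0 : ℝ)..1, (1 + r ^ 2) *
      ∫ φ in (0 : ℝ)..(2 * Real.pi), Δ k (r * Complex.exp (φ * I)) * Real.cos (φ - α)) =
      ∫ r in (0 : ℝ)..1, (1 + r ^ 2) *
        ∫ φ in (0 : ℝ)..(2 * Real.pi), ‖f (r * Complex.exp (φ * I))‖ ^ 2 * Real.cos (φ - α) := by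
    rw [intervalIntegral.integral_of_le zero_le_one, intervalIntegral.integral_of_le zero_le_one,
      MeasureTheory.integral_Ioc_eq_integral_Ioo, MeasureTheory.integral_Ioc_eq_integral_Ioo]
    refine MeasureTheory.setIntegral_congr_fun measurableSet_Ioo (fun r hr => ?_)
    congr 1
    refine intervalIntegral.integral_congr (fun φ _ => ?_)
    rw [hΔ]
    simp [abs_of_pos hr.1, hr.2]
  rw [hcongr0] at h0
  rw [hcongr1] at h1
  have hpi := Real.pi_pos
  -- h1 : -(2π Dk(0)q) = X, h0 : 2π (c/2) = Y, hkey : X < 2 Y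
  have h2 : -(2 * Real.pi * fderiv ℝ k 0 q) < 2 * (2 * Real.pi * (c / 2)) := by
    rw [h1, h0]
    exact hkey
  have h3 : 2 * Real.pi * (fderiv ℝ k 0 q + c) > 0 := by nlinarith
  exact (pos_iff_pos_of_mul_pos (a := 2 * Real.pi) (by positivity) |>.1 (by linarith)) 

end P071
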