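import Mathlib

/-!
P071: the disc automorphism `w ↦ (w + a) / (1 + conj a * w)` and everything the Moebius reduction
of `no_critical` uses about it.
-/

open Metric Complex ComplexConjugate

namespace P071

/-- The disc automorphism taking `0` to `a`. -/
noncomputable def mob (a w : ℂ) : ℂ := (w + a) / (1 + conj a * w)

theorem mob_den_ne {a w : ℂ} (ha : ‖a‖ < 1) (hw : ‖w‖ ≤ 1) : 1 + conj a * w ≠ 0 := by
  intro h
  have h1 : conj a * w = -1 := by linear_combination h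
  have h2 : ‖conj a * w‖ = 1 := by rw [h1]; simp
  rw [norm_mul, RCLike.norm_conj] at h2
  nlinarith [norm_nonneg a, norm_nonneg w]

theorem mob_zero (a : ℂ) : mob a 0 = a := by simp [mob]

/-- The basic identity behind `|mob a w| ≤ 1`. -/
theorem mob_normSq (a w : ℂ) :
    ‖1 + conj a * w‖ ^ 2 - ‖w + a‖ ^ 2 = (1 - ‖w‖ ^ 2) * (1 - ‖a‖ ^ 2) := by
  simp only [← Complex.normSq_eq_norm_sq, Complex.normSq_apply]
  simp only [Complex.add_re, Complex.add_im, Complex.mul_re, Complex.mul_im, Complex.conj_re,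
    Complex.conj_im, Complex.one_re, Complex.one_im]
  ring

theorem mob_norm_le {a w : ℂ} (ha : ‖a‖ < 1) (hw : ‖w‖ ≤ 1) : ‖mob a w‖ ≤ 1 := by
  have hD := mob_den_ne ha hw
  have hDpos : 0 < ‖1 + conj a * w‖ := norm_pos_iff.mpr hD
  rw [mob, norm_div, div_le_one hDpos]
  have h := mob_normSq a w
  have h1 : 0 ≤ (1 - ‖w‖ ^ 2) * (1 - ‖a‖ ^ 2) :=
    mul_nonneg (by nlinarith [norm_nonneg w]) (by nlinarith [norm_nonneg a])
  nlinarith [norm_nonneg (w + a), norm_nonneg (1 + conj a * w)]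

theorem mob_norm_lt {a w : ℂ} (ha : ‖a‖ < 1) (hw : ‖w‖ < 1) : ‖mob a w‖ < 1 := by
  have hD := mob_den_ne ha hw.le
  have hDpos : 0 < ‖1 + conj a * w‖ := norm_pos_iff.mpr hD
  rw [mob, norm_div, div_lt_one hDpos]
  have h := mob_normSq a w
  have h1 : 0 < (1 - ‖w‖ ^ 2) * (1 - ‖a‖ ^ 2) :=
    mul_pos (by nlinarith [norm_nonneg w]) (by nlinarith [norm_nonneg a])
  nlinarith [norm_nonneg (w + a), norm_nonneg (1 + conj a * w)]

theorem mob_norm_eq {a w : ℂ} (ha : ‖a‖ < 1) (hw : ‖w‖ = 1) : ‖mob a w‖ = 1 := by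
  have hD := mob_den_ne ha hw.le
  have hDpos : 0 < ‖1 + conj a * w‖ := norm_pos_iff.mpr hD
  rw [mob, norm_div, div_eq_one_iff_eq hDpos.ne']
  have h := mob_normSq a w
  rw [hw] at h
  have h2 : ‖w + a‖ ^ 2 = ‖1 + conj a * w‖ ^ 2 := by linarith
  exact (pow_left_inj₀ (norm_nonneg _) (norm_nonneg _) two_ne_zero).mp h2

/-- `mob (-a)` inverts `mob a`. -/
theorem mob_left_inv {a w : ℂ} (ha : ‖a‖ < 1) (hw : ‖w‖ ≤ 1) : mob (-a) (mob a w) = w := by
  have hD := mob_den_ne ha hw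
  have haC : (1 : ℂ) - conj a * a ≠ 0 := by
    have h1 : conj a * a = ((‖a‖ ^ 2 : ℝ) : ℂ) := by
      rw [mul_comm, Complex.mul_conj, Complex.normSq_eq_norm_sq]
    rw [h1]
    intro h
    have h2 : ((1 - ‖a‖ ^ 2 : ℝ) : ℂ) = 0 := by push_cast; push_cast at h; exact h
    have h3 : (1 - ‖a‖ ^ 2 : ℝ) = 0 := by exact_mod_cast h2
    nlinarith [norm_nonneg a]
  simp only [mob]
  rw [map_neg]
  obtain ⟨D, hDdef⟩ : ∃ D, D = 1 + conj a * w := ⟨_, rfl⟩
  rw [← hDdef] at hD ⊢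
  obtain ⟨b, hb⟩ : ∃ b, b = conj a := ⟨_, rfl⟩
  rw [← hb] at hDdef haC ⊢
  have hD' : D ≠ 0 := hD
  have hnum : (w + a) / D + -a = w * (1 - b * a) / D := by
    rw [eq_div_iff hD', add_mul, div_mul_cancel₀ _ hD', hDdef]
    ring
  have hden : 1 + -b * ((w + a) / D) = (1 - b * a) / D := by
    rw [eq_div_iff hD', add_mul, mul_assoc, div_mul_cancel₀ _ hD', hDdef]
    ring
  rw [hnum, hden]
  field_simp

theorem mob_right_inv {a w : ℂ} (ha : ‖a‖ < 1) (hw : ‖w‖ ≤ 1) : mob a (mob (-a) w) = w := by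
  have h := mob_left_inv (a := -a) (by simpa using ha) hw
  simpa using h

theorem mob_injOn {a : ℂ} (ha : ‖a‖ < 1) : Set.InjOn (mob a) (closedBall 0 1) := by
  intro w hw w' hw' h
  have hw1 : ‖w‖ ≤ 1 := by simpa using hw
  have hw1' : ‖w'‖ ≤ 1 := by simpa using hw'
  rw [← mob_left_inv ha hw1, ← mob_left_inv ha hw1', h]

theorem mob_hasDerivAt {a w : ℂ} (hD : 1 + conj a * w ≠ 0) :
    HasDerivAt (mob a) ((1 - conj a * a) / (1 + conj a * w) ^ 2) w := by
  have h1 : HasDerivAt (fun w : ℂ => w + a) 1 w := (hasDerivAt_id w).add_const a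
  have h2 : HasDerivAt (fun w : ℂ => 1 + conj a * w) (conj a) w := by
    simpa using ((hasDerivAt_id w).const_mul (conj a)).const_add 1
  have h3 := h1.div h2 hD
  have h4 : (1 - conj a * a) / (1 + conj a * w) ^ 2 =
      (1 * (1 + conj a * w) - (w + a) * conj a) / (1 + conj a * w) ^ 2 := by
    congr 1
    ring
  rw [h4]
  exact h3

/-- On the unit circle, `z * τ'(z)` is a positive real multiple of `τ z`. -/
theorem mob_boundary {a z : ℂ} (ha : ‖a‖ < 1) (hz : ‖z‖ = 1) :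
    z * ((1 - conj a * a) / (1 + conj a * z) ^ 2) =
      (((1 - ‖a‖ ^ 2) / ‖1 + conj a * z‖ ^ 2 : ℝ) : ℂ) * mob a z := by
  have hD := mob_den_ne ha hz.le
  have hzz : z * conj z = 1 := by
    rw [Complex.mul_conj, Complex.normSq_eq_norm_sq, hz]; simp
  have haa : conj a * a = ((‖a‖ ^ 2 : ℝ) : ℂ) := by
    rw [mul_comm, Complex.mul_conj, Complex.normSq_eq_norm_sq]
  have hDD : ((‖1 + conj a * z‖ ^ 2 : ℝ) : ℂ) = (1 + conj a * z) * conj (1 + conj a * z) := by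
    rw [Complex.mul_conj, Complex.normSq_eq_norm_sq]
  have hw : z + a = z * conj (1 + conj a * z) := by
    simp only [map_add, map_one, map_mul, Complex.conj_conj]
    linear_combination (-a) * hzz
  have hDc : conj (1 + conj a * z) ≠ 0 := (map_ne_zero _).mpr hD
  rw [mob, hw, haa]
  push_cast
  push_cast at hDD
  rw [hDD]
  obtain ⟨D, hDdef⟩ : ∃ D, D = 1 + conj a * z := ⟨_, rfl⟩
  rw [← hDdef] at hD hDc ⊢
  obtain ⟨E, hEdef⟩ : ∃ E, E = conj D := ⟨_, rfl⟩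
  rw [← hEdef] at hDc ⊢
  field_simp

end P071
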