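import Vale.Agent.Lib.P071.Disc
import Vale.Agent.Lib.P071.Chain
import Vale.Agent.Lib.P071.CenteredProof
import Vale.Agent.Lib.P071.Moebius

/-!
P071: pull-back of the Neumann function to the unit disc, and Moebius reduction to the centre.
-/

open Metric Complex InnerProductSpace Laplacian ComplexConjugate

namespace P071

/-- The centred theorem: the point tested is `g 0`. Route: `notes/P071_blueprint.md`; with
`E = dslope g q` (nonvanishing near the closed disc by injectivity and `g' ≠ 0`),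
`k = K ∘ g - c log ‖E‖` is `C²` near the closed disc and `N ∘ g = k - c log ‖· - q‖`.
Then `Δ k = C ‖g'‖²` on the open disc by `laplacian_comp_holo` and harmonicity of `log ‖·‖`
(`AnalyticAt.harmonicAt_log_norm`), `∂_r k = c/2` on the circle (`∂_r log ‖z - q‖ = 1/2`, continuity
at `q`), and `disc_origin` with `f = √C g'` gives `0 < Dk(0) q + c = D(N ∘ g)(0) q`. -/
theorem centered {g : ℂ → ℂ} {R : ℝ} (hR : 1 < R) (hg : DifferentiableOn ℂ g (ball 0 R))
    (hinj : Set.InjOn g (closedBall 0 1)) (hg' : ∀ z ∈ closedBall (0 : ℂ) 1, deriv g z ≠ 0)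
    {q : ℂ} (hq : ‖q‖ = 1) {U : Set ℂ} (hU : IsOpen U) (hUg : g '' closedBall 0 1 ⊆ U)
    {K : ℂ → ℝ} (hK : ContDiffOn ℝ 2 K U) {C c : ℝ} (hC : 0 < C) {N : ℂ → ℝ}
    (hN : N = fun y => K y - c * Real.log ‖y - g q‖)
    (hΔ : ∀ y ∈ g '' ball 0 1, Δ N y = C)
    (hBC : ∀ z : ℂ, ‖z‖ = 1 → z ≠ q → fderiv ℝ N (g z) (z * deriv g z) = 0) :
    fderiv ℝ N (g 0) ≠ 0 := by
  exact centered_aux hR hg hinj hg' hq hU hUg hK hC hN hΔ hBC

/-- Moebius reduction: the result for all points of `ψ(D)`. For `y = ψ z₀` apply `centered` to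
`g = ψ ∘ τ`, `τ w = (w + z₀)/(1 + conj z₀ w)`, pole `τ⁻¹ q`; on the circle
`w τ'(w) = ((1-|z₀|²)/|1 + conj z₀ w|²) τ(w)`, a positive multiple of `τ w`. -/
theorem no_critical {ψ : ℂ → ℂ} {R : ℝ} (hR : 1 < R) (hψ : DifferentiableOn ℂ ψ (ball 0 R))
    (hinj : Set.InjOn ψ (closedBall 0 1)) (hψ' : ∀ z ∈ closedBall (0 : ℂ) 1, deriv ψ z ≠ 0)
    {q : ℂ} (hq : ‖q‖ = 1) {U : Set ℂ} (hU : IsOpen U) (hUψ : ψ '' closedBall 0 1 ⊆ U)
    {K : ℂ → ℝ} (hK : ContDiffOn ℝ 2 K U) {C c : ℝ} (hC : 0 < C) {N : ℂ → ℝ}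
    (hN : N = fun y => K y - c * Real.log ‖y - ψ q‖)
    (hΔ : ∀ y ∈ ψ '' ball 0 1, Δ N y = C)
    (hBC : ∀ z : ℂ, ‖z‖ = 1 → z ≠ q → fderiv ℝ N (ψ z) (z * deriv ψ z / (‖deriv ψ z‖ : ℂ)) = 0) :
    ∀ y ∈ ψ '' ball 0 1, fderiv ℝ N y ≠ 0 := by
  rintro y ⟨a, ha, rfl⟩
  have ha1 : ‖a‖ < 1 := by simpa using ha
  -- the radius: the open set of points where `mob a` is regular and lands in `ball 0 R`
  obtain ⟨R', hR', hball⟩ : ∃ R' : ℝ, 1 < R' ∧ ∀ w ∈ ball (0 : ℂ) R',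
      1 + conj a * w ≠ 0 ∧ mob a w ∈ ball (0 : ℂ) R := by
    have hV : IsOpen {w : ℂ | 1 + conj a * w ≠ 0} :=
      isOpen_ne_fun (by fun_prop) continuous_const
    have hcont : ContinuousOn (mob a) {w : ℂ | 1 + conj a * w ≠ 0} := by
      intro w hw
      exact (mob_hasDerivAt hw).continuousAt.continuousWithinAt
    have hW := hcont.isOpen_inter_preimage hV (isOpen_ball (x := (0 : ℂ)) (ε := R))
    have hsub : closedBall (0 : ℂ) 1 ⊆ {w : ℂ | 1 + conj a * w ≠ 0} ∩ mob a ⁻¹' ball (0 : ℂ) R := by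
      intro w hw
      have hw1 : ‖w‖ ≤ 1 := by simpa using hw
      refine ⟨mob_den_ne ha1 hw1, ?_⟩
      have := mob_norm_le ha1 hw1
      simp only [Set.mem_preimage, mem_ball, dist_zero_right]
      linarith
    obtain ⟨δ, hδ, hthick⟩ := (isCompact_closedBall (0 : ℂ) 1).exists_thickening_subset_open hW hsub
    rw [thickening_closedBall hδ zero_le_one] at hthick
    refine ⟨δ + 1, by linarith, fun w hw => hthick hw⟩
  have hmobdiff : ∀ w ∈ ball (0 : ℂ) R', HasDerivAt (mob a)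
      ((1 - conj a * a) / (1 + conj a * w) ^ 2) w := fun w hw => mob_hasDerivAt (hball w hw).1
  have hR1 : ball (0 : ℂ) 1 ⊆ ball (0 : ℂ) R := ball_subset_ball hR.le
  have hψat : ∀ p ∈ ball (0 : ℂ) R, HasDerivAt ψ (deriv ψ p) p := fun p hp =>
    ((hψ p hp).differentiableAt (isOpen_ball.mem_nhds hp)).hasDerivAt
  have hgat : ∀ w ∈ ball (0 : ℂ) R', HasDerivAt (ψ ∘ mob a)
      (deriv ψ (mob a w) * ((1 - conj a * a) / (1 + conj a * w) ^ 2)) w := fun w hw =>
    (hψat _ (hball w hw).2).comp w (hmobdiff w hw)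
  have hcb : ∀ w ∈ closedBall (0 : ℂ) 1, w ∈ ball (0 : ℂ) R' := fun w hw => by
    have hw1 : ‖w‖ ≤ 1 := by simpa using hw
    simp only [mem_ball, dist_zero_right]
    linarith
  have hmobcb : ∀ w ∈ closedBall (0 : ℂ) 1, mob a w ∈ closedBall (0 : ℂ) 1 := fun w hw => by
    have hw1 : ‖w‖ ≤ 1 := by simpa using hw
    simpa using mob_norm_le ha1 hw1
  have h1a : (1 : ℂ) - conj a * a ≠ 0 := by
    have h1 : conj a * a = ((‖a‖ ^ 2 : ℝ) : ℂ) := by
      rw [mul_comm, Complex.mul_conj, Complex.normSq_eq_norm_sq]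
    rw [h1]
    intro h
    have h2 : ((1 - ‖a‖ ^ 2 : ℝ) : ℂ) = 0 := by push_cast; push_cast at h; exact h
    have h3 : (1 - ‖a‖ ^ 2 : ℝ) = 0 := by exact_mod_cast h2
    nlinarith [norm_nonneg a]
  have hqinv : ‖mob (-a) q‖ = 1 := mob_norm_eq (by simpa using ha1) hq
  have hqq : mob a (mob (-a) q) = q := mob_right_inv ha1 hq.le
  have key := centered (g := ψ ∘ mob a) (R := R') (q := mob (-a) q) (U := U) (K := K) (C := C)
    (c := c) (N := N) hR'
    (fun w hw => (hgat w hw).differentiableAt.differentiableWithinAt)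
    (hinj.comp (mob_injOn ha1) hmobcb)
    (fun z hz => by
      rw [(hgat z (hcb z hz)).deriv]
      have hz1 : ‖z‖ ≤ 1 := by simpa using hz
      exact mul_ne_zero (hψ' _ (hmobcb z hz))
        (div_ne_zero h1a (pow_ne_zero 2 (mob_den_ne ha1 hz1))))
    hqinv hU
    (by
      rintro _ ⟨w, hw, rfl⟩
      exact hUψ ⟨mob a w, hmobcb w hw, rfl⟩)
    hK hC
    (by simpa [Function.comp_apply, hqq] using hN)
    (by
      rintro _ ⟨w, hw, rfl⟩
      have hw1 : ‖w‖ < 1 := by simpa using hw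
      exact hΔ _ ⟨mob a w, by simpa using mob_norm_lt ha1 hw1, rfl⟩)
    (by
      intro z hz hzq
      have hzb : z ∈ closedBall (0 : ℂ) 1 := by simp [hz]
      have hp : ‖mob a z‖ = 1 := mob_norm_eq ha1 hz
      have hpq : mob a z ≠ q := by
        intro h
        apply hzq
        rw [← h, mob_left_inv ha1 hz.le]
      have hb := hBC (mob a z) hp hpq
      have hne := hψ' _ (hmobcb z hzb)
      have hnpos : (0 : ℝ) < ‖deriv ψ (mob a z)‖ := norm_pos_iff.mpr hne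
      rw [(hgat z (hcb z hzb)).deriv]
      have hrew : z * (deriv ψ (mob a z) * ((1 - conj a * a) / (1 + conj a * z) ^ 2)) =
          (((1 - ‖a‖ ^ 2) / ‖1 + conj a * z‖ ^ 2 * ‖deriv ψ (mob a z)‖ : ℝ) : ℂ) •
            (mob a z * deriv ψ (mob a z) / (‖deriv ψ (mob a z)‖ : ℂ)) := by
        have h0 := mob_boundary ha1 hz
        have hnc : ((‖deriv ψ (mob a z)‖ : ℝ) : ℂ) ≠ 0 := by exact_mod_cast hnpos.ne'
        rw [smul_eq_mul]
        calc z * (deriv ψ (mob a z) * ((1 - conj a * a) / (1 + conj a * z) ^ 2))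
            = deriv ψ (mob a z) * (z * ((1 - conj a * a) / (1 + conj a * z) ^ 2)) := by ring
          _ = deriv ψ (mob a z) * ((((1 - ‖a‖ ^ 2) / ‖1 + conj a * z‖ ^ 2 : ℝ) : ℂ) * mob a z) := by
                rw [h0]
          _ = _ := by
                push_cast
                field_simp
      rw [Function.comp_apply]
      have hsm : (((1 - ‖a‖ ^ 2) / ‖1 + conj a * z‖ ^ 2 * ‖deriv ψ (mob a z)‖ : ℝ) : ℂ) •
            (mob a z * deriv ψ (mob a z) / (‖deriv ψ (mob a z)‖ : ℂ)) =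
          ((1 - ‖a‖ ^ 2) / ‖1 + conj a * z‖ ^ 2 * ‖deriv ψ (mob a z)‖ : ℝ) •
            (mob a z * deriv ψ (mob a z) / (‖deriv ψ (mob a z)‖ : ℂ)) := by
        rw [Complex.real_smul, smul_eq_mul]
      rw [hrew, hsm, map_smul, hb, smul_zero])
  simpa [Function.comp_apply, mob_zero] using key

end P071
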