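import Vale.Agent.Lib.P071.Coeff

open Metric Complex MeasureTheory intervalIntegral

namespace P071

namespace SeriesAux

lemma hasSum_ii {E : Type*} [NormedAddCommGroup E] [NormedSpace ℝ E] {F : ℕ → ℝ → E} {G : ℝ → E}
    {b : ℕ → ℝ} {A B : ℝ} (hAB : A ≤ B) (hc : ∀ n, Continuous (F n))
    (hb : ∀ n, ∀ t ∈ Set.Icc A B, ‖F n t‖ ≤ b n) (hs : Summable b)
    (hG : ∀ t ∈ Set.Icc A B, HasSum (fun n => F n t) (G t)) :
    HasSum (fun n => ∫ t in A..B, F n t) (∫ t in A..B, G t) := by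
  have hsub : Set.uIoc A B ⊆ Set.Icc A B := by
    rw [Set.uIoc_of_le hAB]; exact Set.Ioc_subset_Icc_self
  refine intervalIntegral.hasSum_integral_of_dominated_convergence (fun n _ => b n)
    (fun n => (hc n).aestronglyMeasurable) ?_ (ae_of_all _ fun _ _ => hs)
    intervalIntegrable_const (ae_of_all _ fun t ht => hG t (hsub ht))
  intro n
  exact ae_of_all _ fun t ht => hb n t (hsub ht)

/-- The character `φ ↦ exp (i k φ)`. -/
noncomputable def eE (k : ℤ) (φ : ℝ) : ℂ := Complex.exp ((k : ℂ) * (φ * I))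

lemma eE_zero (φ : ℝ) : eE 0 φ = 1 := by simp [eE]

lemma eE_add (a b : ℤ) (φ : ℝ) : eE a φ * eE b φ = eE (a + b) φ := by
  unfold eE; rw [← Complex.exp_add]; push_cast; ring_nf

lemma eE_conj (a : ℤ) (φ : ℝ) : (starRingEnd ℂ) (eE a φ) = eE (-a) φ := by
  unfold eE
  rw [← Complex.exp_conj]
  simp [Complex.conj_ofReal]

lemma norm_eE (a : ℤ) (φ : ℝ) : ‖eE a φ‖ = 1 := by
  unfold eE
  have : ((a : ℂ) * (φ * I)) = (((a : ℝ) * φ : ℝ) : ℂ) * I := by push_cast; ring
  rw [this, Complex.norm_exp_ofReal_mul_I]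

lemma continuous_eE (a : ℤ) : Continuous (eE a) := by
  unfold eE; fun_prop

lemma integral_eE (k : ℤ) :
    ∫ φ in (0 : ℝ)..(2 * Real.pi), eE k φ = if k = 0 then ((2 * Real.pi : ℝ) : ℂ) else 0 := by
  split_ifs with h
  · subst h; simp [eE_zero]
  · have hk : ((k : ℂ) * I) ≠ 0 := by simp [h, Complex.I_ne_zero]
    have h1 : ∀ φ : ℝ, eE k φ = Complex.exp (((k : ℂ) * I) * φ) := by
      intro φ; unfold eE; ring_nf
    simp_rw [h1]
    rw [integral_exp_mul_complex hk]
    have h2 : Complex.exp (((k : ℂ) * I) * ((2 * Real.pi : ℝ) : ℂ)) = 1 := by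
      have := Complex.exp_int_mul_two_pi_mul_I k
      rw [← this]; congr 1; push_cast; ring
    rw [h2]; simp

lemma parseval (x y : ℕ → ℂ) (hx : Summable fun n => ‖x n‖) (hy : Summable fun n => ‖y n‖)
    (s : ℕ) :
    HasSum (fun n => x n * (starRingEnd ℂ) (y (n + s)) * ((2 * Real.pi : ℝ) : ℂ))
      (∫ φ in (0 : ℝ)..(2 * Real.pi), eE s φ * (∑' n : ℕ, x n * eE n φ) *
        (starRingEnd ℂ) (∑' m : ℕ, y m * eE m φ)) := by
  have hpi : (0 : ℝ) ≤ 2 * Real.pi := by positivity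
  -- the series for `y`
  have hbY : ∀ (m : ℕ) (φ : ℝ), ‖y m * eE m φ‖ = ‖y m‖ := by
    intro m φ; rw [norm_mul, norm_eE, mul_one]
  have hsY : ∀ φ, Summable fun m : ℕ => y m * eE m φ := fun φ =>
    Summable.of_norm (by simp_rw [hbY]; exact hy)
  have hsX : ∀ φ, Summable fun m : ℕ => x m * eE m φ := fun φ =>
    Summable.of_norm (by
      have : ∀ (m : ℕ), ‖x m * eE m φ‖ = ‖x m‖ := by
        intro m; rw [norm_mul, norm_eE, mul_one]
      simp_rw [this]; exact hx)
  set G : ℝ → ℂ := fun φ => ∑' m : ℕ, y m * eE m φ with hG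
  have hGc : Continuous G := by
    exact continuous_tsum (f := fun (m : ℕ) (φ : ℝ) => y m * eE m φ)
      (fun m => continuous_const.mul (continuous_eE _)) hy (fun m φ => (hbY m φ).le)
  have hGb : ∀ φ, ‖G φ‖ ≤ ∑' m, ‖y m‖ := by
    intro φ
    calc ‖G φ‖ ≤ ∑' m : ℕ, ‖y m * eE m φ‖ := norm_tsum_le_tsum_norm (by simp_rw [hbY]; exact hy)
      _ = ∑' m, ‖y m‖ := by simp_rw [hbY]
  -- Step A: integrating against one character
  have hA : ∀ n : ℕ, ∫ φ in (0 : ℝ)..(2 * Real.pi), eE s φ * eE n φ * (starRingEnd ℂ) (G φ)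
      = (starRingEnd ℂ) (y (n + s)) * ((2 * Real.pi : ℝ) : ℂ) := by
    intro n
    have h1 : HasSum (fun m : ℕ => ∫ φ in (0 : ℝ)..(2 * Real.pi),
        eE s φ * eE n φ * (starRingEnd ℂ) (y m * eE m φ))
        (∫ φ in (0 : ℝ)..(2 * Real.pi), eE s φ * eE n φ * (starRingEnd ℂ) (G φ)) := by
      apply hasSum_ii hpi (b := fun m => ‖y m‖)
      · intro m
        exact ((continuous_eE _).mul (continuous_eE _)).mul
          (Complex.continuous_conj.comp (continuous_const.mul (continuous_eE _)))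
      · intro m φ _
        rw [norm_mul, norm_mul, norm_eE, norm_eE, RCLike.norm_conj, hbY]; simp
      · exact hy
      · intro φ _
        have h2 := ((hsY φ).hasSum)
        have h3 : HasSum (fun m : ℕ => (starRingEnd ℂ) (y m * eE m φ)) ((starRingEnd ℂ) (G φ)) :=
          Complex.hasSum_conj'.mpr h2
        exact h3.mul_left _
    have h4 : ∀ m : ℕ, ∫ φ in (0 : ℝ)..(2 * Real.pi),
        eE s φ * eE n φ * (starRingEnd ℂ) (y m * eE m φ)
        = if m = n + s then (starRingEnd ℂ) (y (n + s)) * ((2 * Real.pi : ℝ) : ℂ) else 0 := by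
      intro m
      have h5 : ∀ φ : ℝ, eE s φ * eE n φ * (starRingEnd ℂ) (y m * eE m φ)
          = (starRingEnd ℂ) (y m) * eE ((s : ℤ) + n - m) φ := by
        intro φ
        rw [map_mul, eE_conj, eE_add]
        have : eE ((s : ℤ) + n - m) φ = eE ((s : ℤ) + n) φ * eE (-(m : ℤ)) φ := by
          rw [eE_add]; rfl
        rw [this]; ring
      simp_rw [h5]
      rw [intervalIntegral.integral_const_mul, integral_eE]
      by_cases hm : m = n + s
      · subst hm
        have : ((s : ℤ) + n - ((n + s : ℕ) : ℤ)) = 0 := by push_cast; ring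
        rw [if_pos this, if_pos rfl]
      · have : ((s : ℤ) + n - (m : ℤ)) ≠ 0 := by
          intro h; apply hm; omega
        simp [this, hm]
    simp_rw [h4] at h1
    have h6 := hasSum_ite_eq (n + s) ((starRingEnd ℂ) (y (n + s)) * ((2 * Real.pi : ℝ) : ℂ))
    exact h1.unique h6
  -- Step B: integrate the series for `x`
  have hB : HasSum (fun n : ℕ => ∫ φ in (0 : ℝ)..(2 * Real.pi),
      x n * (eE s φ * eE n φ * (starRingEnd ℂ) (G φ)))
      (∫ φ in (0 : ℝ)..(2 * Real.pi), eE s φ * (∑' n : ℕ, x n * eE n φ) * (starRingEnd ℂ) (G φ)) := by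
    apply hasSum_ii hpi (b := fun n => ‖x n‖ * ∑' m, ‖y m‖)
    · intro n
      exact continuous_const.mul (((continuous_eE _).mul (continuous_eE _)).mul
        (Complex.continuous_conj.comp hGc))
    · intro n φ _
      rw [norm_mul, norm_mul, norm_mul, norm_eE, norm_eE, RCLike.norm_conj]
      simp only [one_mul]
      exact mul_le_mul_of_nonneg_left (hGb φ) (norm_nonneg _)
    · exact hx.mul_right _
    · intro φ _
      have h2 := (hsX φ).hasSum
      have h3 := h2.mul_left (eE s φ)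
      have h4 := h3.mul_right ((starRingEnd ℂ) (G φ))
      have h5 : (fun n : ℕ => x n * (eE s φ * eE n φ * (starRingEnd ℂ) (G φ)))
          = fun i : ℕ => eE s φ * (x i * eE i φ) * (starRingEnd ℂ) (G φ) := by
        funext n; ring
      rw [h5]; exact h4
  convert hB using 1
  ext n
  rw [intervalIntegral.integral_const_mul, hA n]
  ring

/-- The integral of `(1 + r²) r^(2n+1)` over the unit interval. -/
lemma integral_radial (n : ℕ) :
    ∫ r in (0 : ℝ)..1, (1 + r ^ 2) * r ^ (2 * n + 1) = cn n := by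
  have h1 : ∀ r : ℝ, (1 + r ^ 2) * r ^ (2 * n + 1) = r ^ (2 * n + 1) + r ^ (2 * n + 3) := by
    intro r; ring
  simp_rw [h1]
  rw [intervalIntegral.integral_add (by apply Continuous.intervalIntegrable; fun_prop)
    (by apply Continuous.intervalIntegrable; fun_prop), integral_pow, integral_pow]
  unfold cn
  have h2 : (n : ℝ) + 1 ≠ 0 := by positivity
  have h3 : (n : ℝ) + 2 ≠ 0 := by positivity
  push_cast
  field_simp
  ring

end SeriesAux

open SeriesAux in
/-- Key lemma. `f` analytic on a disc of radius `R > 1`, not identically `0` on the unit disc.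
Then `∫₀¹ (1+r²) ∫₀^{2π} |f(re^{iφ})|² cos(φ-α) dφ dr  < 2 ∫₀¹ r ∫₀^{2π} |f(re^{iφ})|² dφ dr`. -/
theorem key_integral_lt (f : ℂ → ℂ) {R : ℝ} (hR : 1 < R) (hf : DifferentiableOn ℂ f (ball 0 R))
    (hf0 : ∃ z ∈ ball (0 : ℂ) 1, f z ≠ 0) (α : ℝ) :
    (∫ r in (0 : ℝ)..1, (1 + r ^ 2) *
        ∫ φ in (0 : ℝ)..(2 * Real.pi), ‖f (r * Complex.exp (φ * I))‖ ^ 2 * Real.cos (φ - α)) <
      2 * ∫ r in (0 : ℝ)..1, r *
        ∫ φ in (0 : ℝ)..(2 * Real.pi), ‖f (r * Complex.exp (φ * I))‖ ^ 2 := by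
  classical
  -- Taylor coefficients
  set a : ℕ → ℂ := fun n => ((n.factorial : ℂ))⁻¹ * iteratedDeriv n f 0 with ha
  have hT : ∀ z ∈ ball (0 : ℂ) R, HasSum (fun n => a n * z ^ n) (f z) := by
    intro z hz
    have h := Complex.hasSum_taylorSeries_on_ball hf hz
    have h2 : (fun n : ℕ => ((n.factorial : ℂ))⁻¹ • (z - 0) ^ n • iteratedDeriv n f 0)
        = fun n => a n * z ^ n := by
      funext n
      simp only [ha, sub_zero, smul_eq_mul]
      ring
    rw [h2] at h
    exact h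
  -- summability of the coefficients
  set ρ : ℝ := (1 + R) / 2 with hρ
  have hρ1 : 1 < ρ := by rw [hρ]; linarith
  have hρR : ρ < R := by rw [hρ]; linarith
  have hρ0 : 0 < ρ := by linarith
  have hsum : Summable fun n => ‖a n‖ := by
    have hmem : (ρ : ℂ) ∈ ball (0 : ℂ) R := by
      simp only [mem_ball, dist_zero_right, Complex.norm_real, Real.norm_eq_abs, abs_of_pos hρ0]
      exact hρR
    have h1 := (hT (ρ : ℂ) hmem).summable
    have h2 := h1.tendsto_atTop_zero.norm.bddAbove_range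
    obtain ⟨M, hM⟩ := h2
    have h3 : ∀ n, ‖a n‖ ≤ M * (ρ⁻¹) ^ n := by
      intro n
      have h4 : ‖a n * (ρ : ℂ) ^ n‖ ≤ M := hM ⟨n, rfl⟩
      rw [norm_mul, norm_pow, Complex.norm_real, Real.norm_eq_abs, abs_of_pos hρ0] at h4
      rw [inv_pow]
      rw [← div_eq_mul_inv, le_div_iff₀ (by positivity)]
      exact h4
    refine Summable.of_nonneg_of_le (fun n => norm_nonneg _) h3 ?_
    refine (summable_geometric_of_lt_one (by positivity) ?_).mul_left M
    exact inv_lt_one_of_one_lt₀ hρ1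
  set A : ℕ → ℝ := fun n => ‖a n‖ with hAdef
  have hA0 : ∀ n, 0 ≤ A n := fun n => norm_nonneg _
  set B : ℝ := ∑' n, A n with hB
  have hAB : ∀ n, A n ≤ B := fun n => hsum.le_tsum n (fun j _ => hA0 j)
  have hB0 : 0 ≤ B := le_trans (hA0 0) (hAB 0)
  have hAne : ∃ n, A n ≠ 0 := by
    by_contra hcon
    push Not at hcon
    obtain ⟨z, hz, hfz⟩ := hf0
    have hz' : z ∈ ball (0 : ℂ) R := ball_subset_ball hR.le hz
    have h1 := hT z hz'
    have h2 : (fun n => a n * z ^ n) = fun _ => 0 := by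
      funext n
      have : a n = 0 := norm_eq_zero.mp (hcon n)
      rw [this, zero_mul]
    rw [h2] at h1
    exact hfz (h1.unique hasSum_zero)
  -- the circle coefficients
  set x : ℝ → ℕ → ℂ := fun r n => a n * (r : ℂ) ^ n with hx
  have hxn : ∀ r ∈ Set.Icc (0 : ℝ) 1, ∀ n, ‖x r n‖ = A n * r ^ n := by
    intro r hr n
    simp only [hx, norm_mul, norm_pow, Complex.norm_real, Real.norm_eq_abs, abs_of_nonneg hr.1, hAdef]
  have hxs : ∀ r ∈ Set.Icc (0 : ℝ) 1, Summable fun n => ‖x r n‖ := by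
    intro r hr
    refine Summable.of_nonneg_of_le (fun n => norm_nonneg _) (fun n => ?_) hsum
    rw [hxn r hr]
    have : r ^ n ≤ 1 := pow_le_one₀ hr.1 hr.2
    calc A n * r ^ n ≤ A n * 1 := mul_le_mul_of_nonneg_left this (hA0 n)
      _ = ‖a n‖ := by simp [hAdef]
  have hmemz : ∀ r ∈ Set.Icc (0 : ℝ) 1, ∀ φ : ℝ, (r : ℂ) * Complex.exp (φ * I) ∈ ball (0 : ℂ) R := by
    intro r hr φ
    simp only [mem_ball, dist_zero_right, norm_mul, Complex.norm_real, Real.norm_eq_abs,
      abs_of_nonneg hr.1, Complex.norm_exp_ofReal_mul_I, mul_one]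
    linarith [hr.2]
  have hF : ∀ r ∈ Set.Icc (0 : ℝ) 1, ∀ φ : ℝ,
      ∑' n : ℕ, x r n * eE n φ = f (r * Complex.exp (φ * I)) := by
    intro r hr φ
    have h1 := hT _ (hmemz r hr φ)
    have h2 : (fun n : ℕ => a n * ((r : ℂ) * Complex.exp (φ * I)) ^ n)
        = fun n : ℕ => x r n * eE n φ := by
      funext n
      simp only [hx, eE, mul_pow, Int.cast_natCast]
      rw [← Complex.exp_nat_mul]
      ring
    rw [h2] at h1
    exact h1.tsum_eq
  have hFc : ∀ r ∈ Set.Icc (0 : ℝ) 1,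
      Continuous fun φ : ℝ => f ((r : ℂ) * Complex.exp (φ * I)) := by
    intro r hr
    refine hf.continuousOn.comp_continuous (by fun_prop) (fun φ => hmemz r hr φ)
  -- the two Fourier identities
  have hI0 : ∀ r ∈ Set.Icc (0 : ℝ) 1, HasSum (fun n : ℕ => 2 * Real.pi * A n ^ 2 * r ^ (2 * n))
      (∫ φ in (0 : ℝ)..(2 * Real.pi), ‖f (r * Complex.exp (φ * I))‖ ^ 2) := by
    intro r hr
    have h1 := parseval (x r) (x r) (hxs r hr) (hxs r hr) 0
    simp_rw [hF r hr] at h1
    have h2 : ∀ φ : ℝ, eE ((0 : ℕ) : ℤ) φ * f ((r : ℂ) * Complex.exp (φ * I))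
        * (starRingEnd ℂ) (f ((r : ℂ) * Complex.exp (φ * I)))
        = ((‖f ((r : ℂ) * Complex.exp (φ * I))‖ ^ 2 : ℝ) : ℂ) := by
      intro φ
      have : ((0 : ℕ) : ℤ) = 0 := rfl
      rw [this, eE_zero, one_mul, Complex.mul_conj, Complex.normSq_eq_norm_sq]
    simp_rw [h2] at h1
    rw [intervalIntegral.integral_ofReal] at h1
    rw [← Complex.hasSum_ofReal]
    convert h1 using 1
    funext n
    have h3 : x r n * (starRingEnd ℂ) (x r n) = ((‖x r n‖ ^ 2 : ℝ) : ℂ) := by
      rw [Complex.mul_conj, Complex.normSq_eq_norm_sq]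
    simp only [add_zero]
    rw [h3, hxn r hr]
    push_cast
    ring
  set w : ℕ → ℝ := fun n =>
    (Complex.exp (-(α : ℂ) * I) * (a n * (starRingEnd ℂ) (a (n + 1)) * ((2 * Real.pi : ℝ) : ℂ))).re
    with hw
  have hwle : ∀ n, |w n| ≤ 2 * Real.pi * (A n * A (n + 1)) := by
    intro n
    refine (Complex.abs_re_le_norm _).trans ?_
    have h1 : ‖Complex.exp (-(α : ℂ) * I)‖ = 1 := by
      have : -(α : ℂ) * I = ((-α : ℝ) : ℂ) * I := by push_cast; ring
      rw [this, Complex.norm_exp_ofReal_mul_I]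
    rw [norm_mul, h1, one_mul, norm_mul, norm_mul, RCLike.norm_conj, Complex.norm_real,
      Real.norm_eq_abs, abs_of_nonneg (by positivity)]
    simp only [hAdef]
    apply le_of_eq; ring
  have hI1 : ∀ r ∈ Set.Icc (0 : ℝ) 1, HasSum (fun n : ℕ => w n * r ^ (2 * n + 1))
      (∫ φ in (0 : ℝ)..(2 * Real.pi), ‖f (r * Complex.exp (φ * I))‖ ^ 2 * Real.cos (φ - α)) := by
    intro r hr
    have h1 := parseval (x r) (x r) (hxs r hr) (hxs r hr) 1
    simp_rw [hF r hr] at h1
    have h2 := Complex.reCLM.hasSum (h1.mul_left (Complex.exp (-(α : ℂ) * I)))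
    convert h2 using 1
    · funext n
      simp only [Complex.reCLM_apply, hw]
      have h3 : Complex.exp (-(α : ℂ) * I) * (x r n * (starRingEnd ℂ) (x r (n + 1)) * ((2 * Real.pi : ℝ) : ℂ))
          = (Complex.exp (-(α : ℂ) * I) * (a n * (starRingEnd ℂ) (a (n + 1)) * ((2 * Real.pi : ℝ) : ℂ)))
            * ((r ^ (2 * n + 1) : ℝ) : ℂ) := by
        simp only [hx, map_mul, map_pow, Complex.conj_ofReal]
        push_cast
        ring
      rw [h3, Complex.re_mul_ofReal]
    · rw [Complex.reCLM_apply, ← intervalIntegral.integral_const_mul]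
      have hint : IntervalIntegrable (fun φ : ℝ => Complex.exp (-(α : ℂ) * I) *
          (eE ((1 : ℕ) : ℤ) φ * f ((r : ℂ) * Complex.exp (φ * I)) *
            (starRingEnd ℂ) (f ((r : ℂ) * Complex.exp (φ * I))))) volume 0 (2 * Real.pi) := by
        apply Continuous.intervalIntegrable
        exact continuous_const.mul (((continuous_eE _).mul (hFc r hr)).mul
          (Complex.continuous_conj.comp (hFc r hr)))
      have h4 := Complex.reCLM.intervalIntegral_comp_comm hint
      simp only [Complex.reCLM_apply] at h4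
      rw [← h4]
      apply intervalIntegral.integral_congr
      intro φ _
      simp only
      have h5 : Complex.exp (-(α : ℂ) * I) * (eE ((1 : ℕ) : ℤ) φ * f ((r : ℂ) * Complex.exp (φ * I)) *
            (starRingEnd ℂ) (f ((r : ℂ) * Complex.exp (φ * I))))
          = ((‖f ((r : ℂ) * Complex.exp (φ * I))‖ ^ 2 : ℝ) : ℂ) * Complex.exp (((φ - α : ℝ) : ℂ) * I) := by
        have h6 : Complex.exp (((φ - α : ℝ) : ℂ) * I)
            = Complex.exp (-(α : ℂ) * I) * eE ((1 : ℕ) : ℤ) φ := by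
          unfold eE
          rw [← Complex.exp_add]
          congr 1
          push_cast
          ring
        rw [h6, mul_assoc (eE _ φ), Complex.mul_conj, Complex.normSq_eq_norm_sq]
        ring
      rw [h5, Complex.re_ofReal_mul, Complex.exp_ofReal_mul_I_re]
  -- radial integration: left side
  have hL : HasSum (fun n : ℕ => w n * cn n)
      (∫ r in (0 : ℝ)..1, (1 + r ^ 2) *
        ∫ φ in (0 : ℝ)..(2 * Real.pi), ‖f (r * Complex.exp (φ * I))‖ ^ 2 * Real.cos (φ - α)) := by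
    have h1 := hasSum_ii (E := ℝ) (A := 0) (B := 1) zero_le_one
      (F := fun (n : ℕ) (r : ℝ) => w n * ((1 + r ^ 2) * r ^ (2 * n + 1)))
      (G := fun r => (1 + r ^ 2) *
        ∫ φ in (0 : ℝ)..(2 * Real.pi), ‖f (r * Complex.exp (φ * I))‖ ^ 2 * Real.cos (φ - α))
      (b := fun n => 2 * (2 * Real.pi * (A n * B)))
      (by intro n; fun_prop) ?_ ?_ ?_
    · have e : (fun n : ℕ => w n * cn n)
          = fun n : ℕ => ∫ (t : ℝ) in (0 : ℝ)..1, w n * ((1 + t ^ 2) * t ^ (2 * n + 1)) := by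
        funext n
        rw [intervalIntegral.integral_const_mul, integral_radial]
      rw [e]; exact h1
    · intro n r hr
      rw [norm_mul, Real.norm_eq_abs]
      have h2 : ‖(1 + r ^ 2) * r ^ (2 * n + 1)‖ ≤ 2 := by
        rw [Real.norm_eq_abs, abs_of_nonneg (mul_nonneg (by positivity) (pow_nonneg hr.1 _))]
        have h3 : r ^ 2 ≤ 1 := pow_le_one₀ hr.1 hr.2
        have h4 : r ^ (2 * n + 1) ≤ 1 := pow_le_one₀ hr.1 hr.2
        have h5 : 0 ≤ r ^ (2 * n + 1) := pow_nonneg hr.1 _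
        nlinarith
      have h6 : |w n| ≤ 2 * Real.pi * (A n * B) := by
        refine (hwle n).trans ?_
        have := mul_le_mul_of_nonneg_left (hAB (n + 1)) (hA0 n)
        have hpi : 0 ≤ 2 * Real.pi := by positivity
        exact mul_le_mul_of_nonneg_left this hpi
      calc |w n| * ‖(1 + r ^ 2) * r ^ (2 * n + 1)‖ ≤ (2 * Real.pi * (A n * B)) * 2 :=
            mul_le_mul h6 h2 (norm_nonneg _) (le_trans (abs_nonneg _) h6)
        _ = 2 * (2 * Real.pi * (A n * B)) := by ring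
    · exact ((hsum.mul_right B).mul_left _).mul_left _
    · intro r hr
      have h2 := (hI1 r hr).mul_left (1 + r ^ 2)
      have e : (fun n : ℕ => w n * ((1 + r ^ 2) * r ^ (2 * n + 1)))
          = fun n : ℕ => (1 + r ^ 2) * (w n * r ^ (2 * n + 1)) := by
        funext n; ring
      rw [e]; exact h2
  -- radial integration: right side
  have hU : HasSum (fun n : ℕ => 2 * Real.pi * A n ^ 2 * (1 / (2 * (n : ℝ) + 2)))
      (∫ r in (0 : ℝ)..1, r *
        ∫ φ in (0 : ℝ)..(2 * Real.pi), ‖f (r * Complex.exp (φ * I))‖ ^ 2) := by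
    have h1 := hasSum_ii (E := ℝ) (A := 0) (B := 1) zero_le_one
      (F := fun (n : ℕ) (r : ℝ) => 2 * Real.pi * A n ^ 2 * r ^ (2 * n + 1))
      (G := fun r => r *
        ∫ φ in (0 : ℝ)..(2 * Real.pi), ‖f (r * Complex.exp (φ * I))‖ ^ 2)
      (b := fun n => 2 * Real.pi * (A n * B))
      (by intro n; fun_prop) ?_ ?_ ?_
    · have e : (fun n : ℕ => 2 * Real.pi * A n ^ 2 * (1 / (2 * (n : ℝ) + 2)))
          = fun n : ℕ => ∫ (t : ℝ) in (0 : ℝ)..1, 2 * Real.pi * A n ^ 2 * t ^ (2 * n + 1) := by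
        funext n
        rw [intervalIntegral.integral_const_mul, integral_pow]
        congr 1
        push_cast
        norm_num
        ring_nf
      rw [e]; exact h1
    · intro n r hr
      rw [Real.norm_eq_abs, abs_of_nonneg (by
        have := pow_nonneg hr.1 (2 * n + 1)
        have h0 := hA0 n
        positivity)]
      have h2 : r ^ (2 * n + 1) ≤ 1 := pow_le_one₀ hr.1 hr.2
      have h3 : A n ^ 2 ≤ A n * B := by
        rw [sq]; exact mul_le_mul_of_nonneg_left (hAB n) (hA0 n)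
      have hpi : 0 ≤ 2 * Real.pi := by positivity
      calc 2 * Real.pi * A n ^ 2 * r ^ (2 * n + 1) ≤ 2 * Real.pi * A n ^ 2 * 1 :=
            mul_le_mul_of_nonneg_left h2 (by positivity)
        _ ≤ 2 * Real.pi * (A n * B) := by
            rw [mul_one]; exact mul_le_mul_of_nonneg_left h3 hpi
    · exact (hsum.mul_right B).mul_left _
    · intro r hr
      have h2 := (hI0 r hr).mul_left r
      have e : (fun n : ℕ => 2 * Real.pi * A n ^ 2 * r ^ (2 * n + 1))
          = fun n : ℕ => r * (2 * Real.pi * A n ^ 2 * r ^ (2 * n)) := by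
        funext n; ring
      rw [e]; exact h2
  -- the Hardy inequality
  have hH := hardy_strict A hA0 hsum hAne
  have hcn0 : ∀ n, 0 ≤ cn n := by
    intro n; unfold cn; positivity
  have hcn1 : ∀ n, cn n ≤ 2 := by
    intro n; unfold cn
    have h0 : (0 : ℝ) ≤ n := Nat.cast_nonneg n
    rw [div_le_iff₀ (by positivity)]
    nlinarith
  have hS1 : Summable fun n => cn n * (A n * A (n + 1)) := by
    refine Summable.of_nonneg_of_le
      (fun n => mul_nonneg (hcn0 n) (mul_nonneg (hA0 _) (hA0 _))) (fun n => ?_)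
      ((hsum.mul_right B).mul_left 2)
    apply mul_le_mul (hcn1 n) (mul_le_mul_of_nonneg_left (hAB _) (hA0 _))
      (mul_nonneg (hA0 _) (hA0 _)) (by norm_num)
  have hpi : 0 < Real.pi := Real.pi_pos
  have hS2 : HasSum (fun n : ℕ => A n ^ 2 / ((n : ℝ) + 1))
      ((1 / Real.pi) * ∫ r in (0 : ℝ)..1, r *
        ∫ φ in (0 : ℝ)..(2 * Real.pi), ‖f (r * Complex.exp (φ * I))‖ ^ 2) := by
    have h1 := hU.mul_left (1 / Real.pi)
    have e : (fun n : ℕ => A n ^ 2 / ((n : ℝ) + 1))
        = fun n : ℕ => (1 / Real.pi) * (2 * Real.pi * A n ^ 2 * (1 / (2 * (n : ℝ) + 2))) := by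
      funext n
      have h2 : (n : ℝ) + 1 ≠ 0 := by positivity
      have h3 : 2 * (n : ℝ) + 2 = 2 * ((n : ℝ) + 1) := by ring
      rw [h3]
      field_simp
    rw [e]; exact h1
  have hLe : (∫ r in (0 : ℝ)..1, (1 + r ^ 2) *
        ∫ φ in (0 : ℝ)..(2 * Real.pi), ‖f (r * Complex.exp (φ * I))‖ ^ 2 * Real.cos (φ - α))
      ≤ 2 * Real.pi * ∑' n, cn n * (A n * A (n + 1)) := by
    refine hasSum_le (fun n => ?_) hL (hS1.hasSum.mul_left _)
    have h1 := (le_abs_self (w n)).trans (hwle n)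
    calc w n * cn n ≤ (2 * Real.pi * (A n * A (n + 1))) * cn n :=
          mul_le_mul_of_nonneg_right h1 (hcn0 n)
      _ = 2 * Real.pi * (cn n * (A n * A (n + 1))) := by ring
  rw [hS2.tsum_eq] at hH
  have h2pi : (0 : ℝ) < 2 * Real.pi := by positivity
  have h3 := mul_lt_mul_of_pos_left hH h2pi
  have h4 : 2 * Real.pi * ((1 / Real.pi) * ∫ r in (0 : ℝ)..1, r *
        ∫ φ in (0 : ℝ)..(2 * Real.pi), ‖f (r * Complex.exp (φ * I))‖ ^ 2)
      = 2 * ∫ r in (0 : ℝ)..1, r *
        ∫ φ in (0 : ℝ)..(2 * Real.pi), ‖f (r * Complex.exp (φ * I))‖ ^ 2 := by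
    have key : ∀ U : ℝ, 2 * Real.pi * ((1 / Real.pi) * U) = 2 * U := by
      intro U; field_simp
    exact key _
  rw [h4] at h3
  exact lt_of_le_of_lt hLe h3

end P071
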